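import Mathlib

/-!
P181, T6/S5 (helper502): the abstract forcing (surplus) lemma.

Positions `P`, a conflict relation `conf` (two positions in a common fixed column), pure
positions `pl r g` (`g < w r`, `w` antitone).  If frames are cliques, consecutive frames are
chained, and every independent set `Y` of non-pure positions forbids at least `|Y| + 1`
frames, then colour classes `X r` (disjoint, independent, `|X r| = w r`) are exactly the pure
classes up to a permutation which keeps the sizes.
-/

namespace Vale.Agent.P181.H502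

open Finset

/-- The surplus lemma. -/
theorem surplus {P : Type*} {R : ℕ} (conf : P → P → Prop) (w : Fin R → ℕ) (m : ℕ)
    (hw : Antitone w) (hm : ∀ r, m ≤ w r) (hm0 : 0 < m)
    (pl : Fin R → ℕ → P)
    (hinj : ∀ r g r' g', g < w r → g' < w r' → pl r g = pl r' g' → r = r' ∧ g = g')
    (hframe : ∀ r r' g, r ≠ r' → g < w r → g < w r' → conf (pl r g) (pl r' g))
    (hchain : ∀ r r' g, r ≠ r' → g < w r → g + 1 < w r' → conf (pl r g) (pl r' (g + 1)))
    (N : P → Finset ℕ)
    (hN : ∀ o, ∀ g ∈ N o, g < m)
    (hNc : ∀ o, (∀ r g, g < w r → o ≠ pl r g) → ∀ g ∈ N o, ∀ r, conf o (pl r g))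
    (hsur : ∀ Y : Finset P, (∀ o ∈ Y, ∀ r g, g < w r → o ≠ pl r g) → Y.Nonempty →
        (∀ p ∈ Y, ∀ q ∈ Y, p ≠ q → ¬ conf p q) → Y.card + 1 ≤ (Y.biUnion N).card)
    (X : Fin R → Finset P)
    (hdis : ∀ r r', r ≠ r' → Disjoint (X r) (X r'))
    (hind : ∀ r, ∀ p ∈ X r, ∀ q ∈ X r, p ≠ q → ¬ conf p q)
    (hcard : ∀ r, (X r).card = w r) :
    ∃ π : Equiv.Perm (Fin R), ∀ r, w (π r) = w r ∧
      ∀ p, p ∈ X r ↔ ∃ g, g < w r ∧ p = pl (π r) g := by
  classical
  have key : ∀ r, ∃ ρ, w ρ = w r ∧ X r = (range (w r)).image (pl ρ) := by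
    intro r
    refine WellFoundedLT.induction (motive := fun r => ∃ ρ, w ρ = w r ∧
      X r = (range (w r)).image (pl ρ)) r ?_
    intro r IH
    -- Step A
    have hA : ∀ c, w r < w c → ∃ r', r' ≠ r ∧ X r' = (range (w c)).image (pl c) := by
      intro c hc
      have hlt : ∀ r', w r < w r' → r' < r := by
        intro r' h
        by_contra hcon
        exact absurd (hw (not_lt.mp hcon)) (not_le.mpr h)
      have IH' : ∀ r', ∃ ρ, w r < w r' → w ρ = w r' ∧ X r' = (range (w r')).image (pl ρ) := by
        intro r'
        by_cases h : w r < w r'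
        · obtain ⟨ρ, h1⟩ := IH r' (hlt r' h)
          exact ⟨ρ, fun _ => h1⟩
        · exact ⟨r, fun h' => absurd h' h⟩
      choose f hf using IH'
      set S := (Finset.univ : Finset (Fin R)).filter (fun c => w r < w c) with hS
      have hsub : S.image f ⊆ S := by
        intro x hx
        rw [mem_image] at hx
        obtain ⟨r', hr', rfl⟩ := hx
        rw [hS, mem_filter] at hr' ⊢
        refine ⟨mem_univ _, ?_⟩
        rw [(hf r' hr'.2).1]
        exact hr'.2
      have hinjf : Set.InjOn f (S : Set (Fin R)) := by
        intro r1 h1 r2 h2 h12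
        rw [mem_coe, hS, mem_filter] at h1 h2
        by_contra hne
        have e1 := hf r1 h1.2
        have e2 := hf r2 h2.2
        have e3 : X r1 = X r2 := by
          rw [e1.2, e2.2, ← e1.1, ← e2.1, h12]
        have hd := hdis r1 r2 hne
        rw [e3, disjoint_self_iff_empty] at hd
        have := hcard r2
        rw [hd, card_empty] at this
        omega
      have himg : S.image f = S :=
        eq_of_subset_of_card_le hsub (by rw [card_image_of_injOn hinjf])
      have hcS : c ∈ S.image f := by
        rw [himg, hS, mem_filter]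
        exact ⟨mem_univ _, hc⟩
      rw [mem_image] at hcS
      obtain ⟨r', hr', hr'c⟩ := hcS
      rw [hS, mem_filter] at hr'
      refine ⟨r', ?_, ?_⟩
      · rintro rfl
        exact lt_irrefl _ hr'.2
      · have e1 := hf r' hr'.2
        rw [e1.2, ← e1.1, hr'c]
    -- Step B
    have hB : ∀ c g, g < w c → pl c g ∈ X r → w c ≤ w r := by
      intro c g hg hp
      by_contra hcon
      obtain ⟨r', hr', hX⟩ := hA c (not_le.mp hcon)
      have h2 : pl c g ∈ X r' := by
        rw [hX, mem_image]
        exact ⟨g, mem_range.mpr hg, rfl⟩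
      exact (disjoint_left.mp (hdis r' r hr')) h2 hp
    -- Step C
    set Y := (X r).filter (fun p => ∀ c g, g < w c → p ≠ pl c g) with hY
    set Z := (X r).filter (fun p => ¬ ∀ c g, g < w c → p ≠ pl c g) with hZ
    have hYZ : Y.card + Z.card = w r := by
      rw [← hcard r]
      exact card_filter_add_card_filter_not _
    have hex : ∀ p, ∃ cg : Fin R × ℕ, p ∈ Z → cg.2 < w cg.1 ∧ p = pl cg.1 cg.2 := by
      intro p
      by_cases hp : p ∈ Z
      · have hp2 := hp
        rw [hZ, mem_filter] at hp2
        have h3 := hp2.2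
        push Not at h3
        obtain ⟨c, g, h1, h2⟩ := h3
        exact ⟨(c, g), fun _ => ⟨h1, h2⟩⟩
      · exact ⟨(r, 0), fun h => absurd h hp⟩
    choose cg hcg using hex
    have hZinj : Set.InjOn (fun p => (cg p).2) (Z : Set P) := by
      intro p hp q hq hpq
      rw [mem_coe] at hp hq
      have hp1 := hcg p hp
      have hq1 := hcg q hq
      have hpX : p ∈ X r := (mem_filter.mp hp).1
      have hqX : q ∈ X r := (mem_filter.mp hq).1
      have hpq' : (cg p).2 = (cg q).2 := hpq
      by_contra hne
      have hc : (cg p).1 ≠ (cg q).1 := by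
        intro h
        apply hne
        rw [hp1.2, hq1.2, h, hpq']
      have h4 := hframe (cg p).1 (cg q).1 (cg p).2 hc hp1.1 (by rw [hpq']; exact hq1.1)
      rw [← hp1.2, hpq', ← hq1.2] at h4
      exact hind r p hpX q hqX hne h4
    have hZmap : ∀ p ∈ Z, (cg p).2 ∈ range (w r) \ Y.biUnion N := by
      intro p hp
      have hp1 := hcg p hp
      have hpX : p ∈ X r := (mem_filter.mp hp).1
      rw [mem_sdiff, mem_range, mem_biUnion]
      refine ⟨lt_of_lt_of_le hp1.1 (hB _ _ hp1.1 (hp1.2 ▸ hpX)), ?_⟩
      rintro ⟨o, ho, hg⟩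
      have ho2 := mem_filter.mp ho
      have h5 := hNc o ho2.2 _ hg (cg p).1
      rw [← hp1.2] at h5
      have hne : o ≠ p := by
        have := ho2.2 _ _ hp1.1
        rwa [← hp1.2] at this
      exact hind r o ho2.1 p hpX hne h5
    have hZcard : Z.card ≤ w r - (Y.biUnion N).card := by
      have h6 : (range (w r) \ Y.biUnion N).card = w r - (Y.biUnion N).card := by
        rw [card_sdiff_of_subset, card_range]
        intro g hg
        rw [mem_biUnion] at hg
        obtain ⟨o, _, hg⟩ := hg
        rw [mem_range]
        exact lt_of_lt_of_le (hN o g hg) (hm r)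
      rw [← h6]
      exact card_le_card_of_injOn _ hZmap hZinj
    have hsubm : (Y.biUnion N).card ≤ w r := by
      have : Y.biUnion N ⊆ range (w r) := by
        intro g hg
        rw [mem_biUnion] at hg
        obtain ⟨o, _, hg⟩ := hg
        rw [mem_range]
        exact lt_of_lt_of_le (hN o g hg) (hm r)
      calc _ ≤ (range (w r)).card := card_le_card this
        _ = w r := card_range _
    have hYe : Y = ∅ := by
      by_contra hne
      have h7 := hsur Y (fun o ho => (mem_filter.mp ho).2) (nonempty_iff_ne_empty.mpr hne)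
        (fun p hp q hq h => hind r p (mem_filter.mp hp).1 q (mem_filter.mp hq).1 h)
      omega
    have hZX : ∀ p ∈ X r, p ∈ Z := by
      intro p hp
      by_contra hcon
      have : p ∈ Y := by
        rw [hY, mem_filter]
        refine ⟨hp, ?_⟩
        by_contra h8
        exact hcon (mem_filter.mpr ⟨hp, h8⟩)
      rw [hYe] at this
      exact absurd this (notMem_empty _)
    -- Step D
    have hYc : Y.card = 0 := by rw [hYe, card_empty]
    have himg : Z.image (fun p => (cg p).2) = range (w r) := by
      apply eq_of_subset_of_card_le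
      · intro g hg
        rw [mem_image] at hg
        obtain ⟨p, hp, rfl⟩ := hg
        exact (mem_sdiff.mp (hZmap p hp)).1
      · rw [card_range, card_image_of_injOn hZinj]
        omega
    have hsurj : ∀ g, ∃ c, g < w r → g < w c ∧ pl c g ∈ X r := by
      intro g
      by_cases hg : g < w r
      · have h9 : g ∈ Z.image (fun p => (cg p).2) := by
          rw [himg]; exact mem_range.mpr hg
        rw [mem_image] at h9
        obtain ⟨p, hp, hpg⟩ := h9
        have hp1 := hcg p hp
        have hpX : p ∈ X r := (mem_filter.mp hp).1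
        have hpg' : (cg p).2 = g := hpg
        rw [hpg'] at hp1
        exact ⟨(cg p).1, fun _ => ⟨hp1.1, hp1.2 ▸ hpX⟩⟩
      · exact ⟨r, fun h => absurd h hg⟩
    choose c hc using hsurj
    have hcc : ∀ g, g < w r → c g = c 0 := by
      intro g
      induction g with
      | zero => intro _; rfl
      | succ g ih =>
        intro hg
        rw [← ih (by omega)]
        by_contra hne
        have h1 := hc g (by omega)
        have h2 := hc (g + 1) hg
        have h3 := hchain (c g) (c (g + 1)) g (fun h => hne h.symm) h1.1 h2.1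
        refine hind r _ h1.2 _ h2.2 ?_ h3
        intro h4
        have := (hinj _ _ _ _ h1.1 h2.1 h4).2
        omega
    have hwr : 0 < w r := lt_of_lt_of_le hm0 (hm r)
    refine ⟨c 0, ?_, ?_⟩
    · apply le_antisymm
      · exact hB _ _ (hc 0 hwr).1 (hc 0 hwr).2
      · have h1 := (hc (w r - 1) (by omega)).1
        rw [hcc (w r - 1) (by omega)] at h1
        omega
    · symm
      apply eq_of_subset_of_card_le
      · intro p hp
        rw [mem_image] at hp
        obtain ⟨g, hg, rfl⟩ := hp
        rw [mem_range] at hg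
        have := (hc g hg).2
        rwa [hcc g hg] at this
      · rw [hcard r, card_image_of_injOn, card_range]
        intro g hg g' hg' h
        rw [mem_coe, mem_range] at hg hg'
        have h1 := (hc g hg).1
        have h2 := (hc g' hg').1
        rw [hcc g hg] at h1
        rw [hcc g' hg'] at h2
        exact (hinj _ _ _ _ h1 h2 h).2
  choose π hπ using key
  have hπinj : Function.Injective π := by
    intro r1 r2 h12
    by_contra hne
    have e1 := hπ r1
    have e2 := hπ r2
    have e3 : X r1 = X r2 := by
      rw [e1.2, e2.2, ← e1.1, ← e2.1, h12]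
    have hd := hdis r1 r2 hne
    rw [e3, disjoint_self_iff_empty] at hd
    have h1 := hcard r2
    rw [hd, card_empty] at h1
    have := hm r2
    omega
  refine ⟨Equiv.ofBijective π (Finite.injective_iff_bijective.mp hπinj), fun r => ?_⟩
  refine ⟨(hπ r).1, fun p => ?_⟩
  rw [(hπ r).2, mem_image]
  constructor
  · rintro ⟨g, hg, rfl⟩
    exact ⟨g, mem_range.mp hg, rfl⟩
  · rintro ⟨g, hg, rfl⟩
    exact ⟨g, mem_range.mpr hg, rfl⟩

end Vale.Agent.P181.H502
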