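import Vale.Agent.P181.S6.Spec

/-!
# P181, S6: rigidity
-/

set_option autoImplicit false

namespace Vale.Agent.P181.S6

open Finset Vale.Agent.P181.H59

theorem rig_stmt : RigStmt := by
  intro b h j R N P S len A hA ρ hρ
  by_contra hcon
  push Not at hcon
  apply hρ
  -- the preimages of the stars
  have hT : ∀ i, (S.st i).image ρ.symm = S.st i := by
    -- strong induction on the size
    suffices H : ∀ s : ℕ, ∀ i, (S.st i).card = s → (S.st i).image ρ.symm = S.st i by
      intro i
      exact H _ i rfl
    intro s
    induction s using Nat.strong_induction_on with
    | _ s ih =>
      intro i hi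
      have hcard : ((S.st i).image ρ.symm).card = (S.st i).card :=
        card_image_of_injective _ ρ.symm.injective
      -- no column misses the preimage
      have hno : ¬ ∃ c, Disjoint (A c) ((S.st i).image ρ.symm) := by
        rintro ⟨c, hc⟩
        apply hcon c i
        rw [Finset.disjoint_left] at hc ⊢
        intro p hp hps
        rw [mem_image] at hp
        obtain ⟨q, hq, rfl⟩ := hp
        apply hc hq
        rw [mem_image]
        exact ⟨ρ q, hps, by simp⟩
      have hsm : ∀ k, k ≠ i → (S.st k).card < s →
          10 * (S.st k ∩ (S.st i).image ρ.symm).card ≤ h := by
        intro k hk hks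
        have h1 := ih _ hks k rfl
        have h2 : S.st k ∩ (S.st i).image ρ.symm = (S.st k ∩ S.st i).image ρ.symm := by
          conv_lhs => rw [← h1]
          rw [image_inter _ _ ρ.symm.injective]
        rw [h2, card_image_of_injective _ ρ.symm.injective]
        exact S.inter k i hk
      by_cases hall : ∀ k, ¬ S.st k ⊆ (S.st i).image ρ.symm
      · exfalso
        apply hno
        apply hA.2.2.2 _ (by rw [hcard]; exact S.size_le i) hall
        intro k hk
        rw [hcard] at hk
        have := hsm k (by rintro rfl; omega) (by omega)
        omega
      · push Not at hall
        obtain ⟨k, hk⟩ := hall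
        have hle : (S.st k).card ≤ (S.st i).card := by
          rw [← hcard]
          exact card_le_card hk
        have hki : k = i := by
          by_contra hne
          have hlt : (S.st k).card < s := by
            rcases lt_or_eq_of_le hle with h1 | h1
            · omega
            · exact absurd (S.size_inj k i h1) hne
          have h2 := hsm k hne hlt
          rw [inter_eq_left.2 hk] at h2
          have h3 := S.size_ge k
          have h4 := S.size_ge i
          have h5 := S.size_le i
          omega
        subst hki
        exact (eq_of_subset_of_card_le hk (by rw [hcard])).symm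
  -- all stars are fixed
  ext p
  have h1 : ρ p = p := by
    apply S.sep
    intro i
    constructor
    · intro hp
      rw [← hT i, mem_image]
      exact ⟨ρ p, hp, by simp⟩
    · intro hp
      rw [← hT i, mem_image] at hp
      obtain ⟨q, hq, hqp⟩ := hp
      rw [← hqp]
      simpa using hq
  rw [h1]
  rfl

end Vale.Agent.P181.S6
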