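import Vale.Agent.P181.S6.Spec
import Vale.Agent.P181.H502.Rig6

/-!
# P181, S6: the design for short columns
-/

set_option autoImplicit false

namespace Vale.Agent.P181.S6

open Finset Vale.Agent.P181.H59

/-- The combinatorial assembly. -/
theorem des_core (hF : FillStmt) {b h j R N N1 P1 P2 e : ℕ} (S : Mid b h j R) (hb : 0 < b)
    (hN1 : N1 ≤ N) (len : Fin N → ℕ) (A1 : Fin N1 → Finset (Fin b))
    (h1 : Cert S (fun c => len (Fin.castLE hN1 c)) P1 A1) (A2 : Fin N → Finset (Fin b))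
    (h2 : ∀ c, HasSDR S.st (A2 c)) (h2c : ∀ c, (A2 c).card = R) (h2d : ∀ p, dgr A2 p ≤ P2)
    (hRl : ∀ c, R ≤ len c) (hle : ∀ c, len c + e ≤ b)
    (hnum : b * (P1 + P2 + 1) + e * (P1 + P2) < e * ((∑ c, len c) / b + 1)) :
    Design b R N len := by
  classical
  refine ⟨S.st, fun gd hgd hsum => ?_⟩
  set G : Fin N → Finset (Fin b) :=
    fun c => if hc : (c : ℕ) < N1 then A1 ⟨c, hc⟩ else A2 c with hG
  set κ : ℕ := (∑ c, len c) / b with hκ
  have hGlen : ∀ c, (G c).card ≤ len c := by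
    intro c
    simp only [hG]
    split_ifs with hc
    · rw [h1.1 ⟨c, hc⟩]
      exact le_of_eq rfl
    · rw [h2c c]
      exact hRl c
  have hGd : ∀ p, dgr G p ≤ P1 + P2 := by
    intro p
    have e1 : (univ.filter fun c => p ∈ G c) ⊆
        ((univ.filter fun c => p ∈ A1 c).image (Fin.castLE hN1)) ∪
          (univ.filter fun c => p ∈ A2 c) := by
      intro c hc
      rw [mem_filter] at hc
      rw [mem_union, mem_image]
      by_cases hc1 : (c : ℕ) < N1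
      · left
        refine ⟨⟨c, hc1⟩, ?_, rfl⟩
        rw [mem_filter]
        refine ⟨mem_univ _, ?_⟩
        have := hc.2
        simp only [hG, hc1, dif_pos] at this
        exact this
      · right
        rw [mem_filter]
        refine ⟨mem_univ _, ?_⟩
        have := hc.2
        simp only [hG, hc1, dif_neg, not_false_iff] at this
        exact this
    have h3 := h1.2.2.1 p
    have h4 := h2d p
    unfold dgr at h3 h4 ⊢
    calc _ ≤ _ := card_le_card e1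
      _ ≤ _ := card_union_le _ _
      _ ≤ _ := Nat.add_le_add card_image_le le_rfl
      _ ≤ _ := by omega
  have hlt : ∑ c, len c < b * (κ + 1) := by
    rw [hκ]
    exact Nat.lt_mul_div_succ _ hb
  have hge : b * κ ≤ ∑ c, len c := by
    rw [hκ]
    exact Nat.mul_div_le _ _
  have hgd2 : ∀ p, κ ≤ gd p ∧ gd p ≤ κ + 1 := by
    intro p
    constructor
    · by_contra hlt'
      push Not at hlt'
      have h3 : ∑ q, gd q < ∑ _q : Fin b, κ := by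
        apply sum_lt_sum
        · intro q _
          have := hgd q p
          omega
        · exact ⟨p, mem_univ _, hlt'⟩
      rw [sum_const, card_univ, Fintype.card_fin, smul_eq_mul] at h3
      omega
    · by_contra hgt
      push Not at hgt
      have h3 : ∑ _q : Fin b, (κ + 1) ≤ ∑ q, gd q := by
        apply sum_le_sum
        intro q _
        have := hgd p q
        omega
      rw [sum_const, card_univ, Fintype.card_fin, smul_eq_mul] at h3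
      omega
  obtain ⟨A, hGA, hAc, hAd⟩ := hF (Fin N) (Fin b) len G gd κ (P1 + P2) e hGlen
    (by simpa using hle) hGd hgd2 hsum (by simpa using hnum)
  refine ⟨A, hAc, hAd, fun c => ?_, fun ρ hρ => ?_⟩
  · have h5 : HasSDR S.st (G c) := by
      simp only [hG]
      split_ifs with hc
      · exact h1.2.1 _
      · exact h2 c
    obtain ⟨φ, hφ, hφ2⟩ := h5
    exact ⟨φ, hφ, fun i => ⟨hGA c (hφ2 i).1, (hφ2 i).2⟩⟩
  · obtain ⟨c, i, hci⟩ := rig_stmt b h j R N1 P1 S _ A1 h1 ρ hρ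
    refine ⟨Fin.castLE hN1 c, i, ?_⟩
    have h6 : G (Fin.castLE hN1 c) = A1 c := by
      simp [hG]
    have h7 : A (Fin.castLE hN1 c) = A1 c := by
      rw [← h6]
      symm
      apply eq_of_subset_of_card_le (hGA _)
      rw [hAc, h6, h1.1 c]
    rw [h7]
    exact hci

/-- the half-length `h`. -/
theorem par_h {K C₀ j b m : ℕ} (hm1 : 1 ≤ m) (hb : 1 ≤ b) (hmb' : m ≤ b)
    (hmb : m ^ 2 ≤ C₀ * b) (hK : 10 * j * (C₀ + 1) ≤ K) :
    ∃ h : ℕ, 0 < h ∧ K * b ≤ h * m ∧ h * m ≤ (K + 1) * b ∧ 100 * j ^ 2 * b ≤ h ^ 2 := by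
  refine ⟨K * b / m + 1, Nat.succ_pos _, ?_, ?_, ?_⟩
  · have h1 := (Nat.lt_mul_div_succ (K * b) (by omega : 0 < m)).le
    calc K * b ≤ m * (K * b / m + 1) := h1
      _ = (K * b / m + 1) * m := mul_comm _ _
  · have h1 := Nat.div_mul_le_self (K * b) m
    calc (K * b / m + 1) * m = K * b / m * m + m := by ring
      _ ≤ K * b + b := Nat.add_le_add h1 hmb'
      _ = _ := by ring
  · have hh1 : K * b ≤ (K * b / m + 1) * m := by
      have h1 := (Nat.lt_mul_div_succ (K * b) (by omega : 0 < m)).le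
      calc K * b ≤ m * (K * b / m + 1) := h1
        _ = (K * b / m + 1) * m := mul_comm _ _
    generalize K * b / m + 1 = h at hh1 ⊢
    have h1 : (K * b) ^ 2 ≤ (h * m) ^ 2 := Nat.pow_le_pow_left hh1 2
    have h2 : (h * m) ^ 2 ≤ h ^ 2 * (C₀ * b) := by
      rw [mul_pow]
      exact Nat.mul_le_mul_left _ hmb
    have h3 : K ^ 2 * b * b ≤ h ^ 2 * C₀ * b := by
      calc K ^ 2 * b * b = (K * b) ^ 2 := by ring
        _ ≤ _ := le_trans h1 h2
        _ = _ := by ring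
    have h4 : K ^ 2 * b ≤ h ^ 2 * C₀ := Nat.le_of_mul_le_mul_right h3 (by omega)
    have h5 : (10 * j * (C₀ + 1)) ^ 2 ≤ K ^ 2 := Nat.pow_le_pow_left hK 2
    have h6 : (100 * j ^ 2 * b) * (C₀ + 1) ≤ h ^ 2 * (C₀ + 1) := by
      calc (100 * j ^ 2 * b) * (C₀ + 1) ≤ (100 * j ^ 2 * b) * (C₀ + 1) * (C₀ + 1) :=
            Nat.le_mul_of_pos_right _ (by omega)
        _ = (10 * j * (C₀ + 1)) ^ 2 * b := by ring
        _ ≤ K ^ 2 * b := Nat.mul_le_mul_right _ h5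
        _ ≤ h ^ 2 * C₀ := h4
        _ ≤ _ := Nat.mul_le_mul_left _ (by omega)
    exact Nat.le_of_mul_le_mul_right h6 (by omega)

/-- the exponent `g`. -/
theorem par_g {ε : ℝ} (hε : 0 < ε) {j K b h : ℕ} (hj3 : 3 ≤ j) (hb64 : 64 ≤ b) (hhpos : 0 < h)
    (hjε : 2 / ε ≤ ((j - 1 : ℕ) : ℝ)) (hbig : (64 * 2 ^ j * (K + 1) : ℝ) ≤ (b : ℝ) ^ (ε / 2))
    (hhε : (h : ℝ) * (b : ℝ) ^ ε ≤ (K + 1) * b) (hbh : b ≤ h ^ 2) (hbj : 2 ^ (10 * j) ≤ b) :
    64 * h ≤ b ∧ ∃ g : ℕ, 6 ≤ g ∧ 2 * h ≤ 2 ^ (g * (j - 1)) ∧ 64 * 2 ^ (g * (j - 1)) ≤ b ∧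
      4 * 2 ^ g * h ≤ b := by
  have hbpos : (0 : ℝ) < b := by exact_mod_cast (by omega : 0 < b)
  have hb1 : (1 : ℝ) ≤ b := by exact_mod_cast (by omega : 1 ≤ b)
  have hεhalf : (b : ℝ) ^ (ε / 2) ≤ (b : ℝ) ^ ε :=
    Real.rpow_le_rpow_of_exponent_le hb1 (by linarith)
  have hKr : (0 : ℝ) < (K : ℝ) + 1 := by positivity
  have hhb : 64 * 2 ^ j * h ≤ b := by
    have h1 : (64 * 2 ^ j * h : ℝ) * (K + 1) ≤ b * (K + 1) := by
      calc (64 * 2 ^ j * h : ℝ) * (K + 1) = h * (64 * 2 ^ j * (K + 1)) := by ring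
        _ ≤ h * (b : ℝ) ^ ε :=
            mul_le_mul_of_nonneg_left (le_trans hbig hεhalf) (by positivity)
        _ ≤ _ := by linarith
    have h2 := le_of_mul_le_mul_right h1 hKr
    exact_mod_cast h2
  have h2j : 1 ≤ 2 ^ j := Nat.one_le_two_pow
  have h64 : 64 * h ≤ b := by
    calc 64 * h ≤ 64 * 2 ^ j * h := Nat.mul_le_mul_right _ (by omega)
      _ ≤ b := hhb
  refine ⟨h64, ?_⟩
  have hex : ∃ g, 2 * h ≤ 2 ^ (g * (j - 1)) := by
    refine ⟨2 * h, ?_⟩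
    calc 2 * h ≤ 2 ^ (2 * h) := Nat.lt_two_pow_self.le
      _ ≤ _ := Nat.pow_le_pow_right (by norm_num) (Nat.le_mul_of_pos_right _ (by omega))
  classical
  obtain ⟨g, hgs, hgmin⟩ : ∃ g, 2 * h ≤ 2 ^ (g * (j - 1)) ∧
      ∀ g' < g, ¬ 2 * h ≤ 2 ^ (g' * (j - 1)) :=
    ⟨Nat.find hex, Nat.find_spec hex, fun g' hg' => Nat.find_min hex hg'⟩
  have hg1 : 1 ≤ g := by
    by_contra hc
    have h0 : g = 0 := by omega
    rw [h0] at hgs
    simp at hgs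
    omega
  obtain ⟨g', rfl⟩ : ∃ g', g = g' + 1 := ⟨g - 1, by omega⟩
  obtain ⟨j', rfl⟩ : ∃ j', j = j' + 1 := ⟨j - 1, by omega⟩
  simp only [Nat.add_sub_cancel] at *
  have hgm : 2 ^ (g' * j') < 2 * h := by
    have := hgmin g' (by omega)
    omega
  have hgj : 2 ^ ((g' + 1) * j') ≤ h * 2 ^ (j' + 1) := by
    calc 2 ^ ((g' + 1) * j') = 2 ^ (g' * j') * 2 ^ j' := by rw [add_mul, one_mul, pow_add]
      _ ≤ (2 * h) * 2 ^ j' := Nat.mul_le_mul_right _ hgm.le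
      _ = _ := by ring
  have hgb : 64 * 2 ^ ((g' + 1) * j') ≤ b := by
    calc 64 * 2 ^ ((g' + 1) * j') ≤ 64 * (h * 2 ^ (j' + 1)) := Nat.mul_le_mul_left _ hgj
      _ = 64 * 2 ^ (j' + 1) * h := by ring
      _ ≤ b := hhb
  have hg6 : 6 ≤ g' + 1 := by
    by_contra hc
    have h1 : 2 ^ ((g' + 1) * j') ≤ 2 ^ (5 * (j' + 1)) :=
      Nat.pow_le_pow_right (by norm_num) (Nat.mul_le_mul (by omega) (by omega))
    have h2 : 2 ^ (10 * (j' + 1)) = (2 ^ (5 * (j' + 1))) ^ 2 := by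
      rw [← pow_mul]
      ring_nf
    have h3 : (2 ^ (5 * (j' + 1))) ^ 2 ≤ h ^ 2 := by
      rw [← h2]
      omega
    have h4 : 2 ^ (5 * (j' + 1)) ≤ h := by
      by_contra h5
      push Not at h5
      have := Nat.pow_lt_pow_left h5 (two_ne_zero)
      omega
    omega
  refine ⟨g' + 1, hg6, hgs, hgb, ?_⟩
  have hg2 : ((2 : ℝ) ^ g') ≤ (b : ℝ) ^ (ε / 2) := by
    by_contra hc
    push Not at hc
    have h1 : ((b : ℝ) ^ (ε / 2)) ^ j' < ((2 : ℝ) ^ g') ^ j' :=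
      pow_lt_pow_left₀ hc (by positivity) (by omega)
    have h2 : (b : ℝ) ≤ ((b : ℝ) ^ (ε / 2)) ^ j' := by
      rw [← Real.rpow_natCast, ← Real.rpow_mul hbpos.le]
      calc (b : ℝ) = (b : ℝ) ^ (1 : ℝ) := (Real.rpow_one _).symm
        _ ≤ _ := by
          apply Real.rpow_le_rpow_of_exponent_le hb1
          have h3 : ε / 2 * (2 / ε) = 1 := by field_simp
          have h4 : ε / 2 * (2 / ε) ≤ ε / 2 * (j' : ℝ) :=
            mul_le_mul_of_nonneg_left hjε (by positivity)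
          linarith
    have h5 : ((2 : ℝ) ^ g') ^ j' < 2 * h := by
      rw [← pow_mul]
      exact_mod_cast hgm
    have h6 : (2 * h : ℝ) ≤ b := by exact_mod_cast (by omega : 2 * h ≤ b)
    linarith
  have h64j : (8 * (K + 1) : ℝ) ≤ (b : ℝ) ^ (ε / 2) := by
    refine le_trans ?_ hbig
    have h7 : (1 : ℝ) ≤ 2 ^ (j' + 1) := one_le_pow₀ (by norm_num)
    nlinarith
  have h2 : (4 * 2 ^ (g' + 1) * h : ℝ) * (K + 1) ≤ b * (K + 1) := by
    calc (4 * 2 ^ (g' + 1) * h : ℝ) * (K + 1)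
          = h * (2 ^ g' * (8 * (K + 1))) := by ring
      _ ≤ h * ((b : ℝ) ^ (ε / 2) * (b : ℝ) ^ (ε / 2)) := by
          apply mul_le_mul_of_nonneg_left _ (by positivity)
          exact mul_le_mul hg2 h64j (by positivity) (by positivity)
      _ = h * (b : ℝ) ^ ε := by
          rw [← Real.rpow_add hbpos]
          congr 2
          ring
      _ ≤ _ := by linarith
  have h3 := le_of_mul_le_mul_right h2 hKr
  exact_mod_cast h3

/-- the degree inequality. -/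
theorem par_num {C1 C2 K M N N1 P1 P2 b h m j C₀ : ℕ} {Λ : ℝ} (hb : 0 < b) (hhpos : 0 < h)
    (hΛ : 1 ≤ Λ) (hK : K = 8 * C2 + 10 * j * (C₀ + 1) + 2 * j + 10)
    (hM : M = C1 ^ 2 + C1 + C2 + 10)
    (hKb : K * b ≤ h * m) (hNM : (M : ℝ) * (h * Λ) ≤ N)
    (hN1b : (N1 : ℝ) ≤ C1 * h * Λ + 1)
    (hP1b : (P1 : ℝ) * h ≤ C1 * N1 + h) (hP2b : (P2 : ℝ) * h ≤ C2 * N + h) :
    (4 * (P1 + P2) + 3) * b ≤ N * m := by
  have hhr : (0 : ℝ) < h := by exact_mod_cast hhpos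
  have hbpos : (0 : ℝ) < b := by exact_mod_cast hb
  have hKbr : (K : ℝ) * b ≤ h * m := by exact_mod_cast hKb
  have hhr1 : (1 : ℝ) ≤ h := by exact_mod_cast hhpos
  have hhΛ : 1 ≤ (h : ℝ) * Λ := by nlinarith
  have hMr : (M : ℝ) = C1 ^ 2 + C1 + C2 + 10 := by
    rw [hM]
    push_cast
    ring
  have hKr2 : (K : ℝ) = 8 * C2 + 10 * j * (C₀ + 1) + 2 * j + 10 := by
    rw [hK]
    push_cast
    ring
  have hK10 : 8 * (C2 : ℝ) + 10 ≤ K := by
    rw [hKr2]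
    have : (0 : ℝ) ≤ 10 * j * (C₀ + 1) + 2 * j := by positivity
    linarith
  have e1 : (C1 : ℝ) * N1 ≤ C1 * (C1 * h * Λ + 1) :=
    mul_le_mul_of_nonneg_left hN1b (by positivity)
  have e2 : (4 * ((P1 : ℝ) + P2) + 3) * h
      ≤ 4 * (C1 * (C1 * h * Λ + 1)) + 4 * (C2 * N) + 11 * h := by
    linarith
  have e3 : (10 : ℝ) * ((C1 ^ 2 + C1 + C2 + 10) * (h * Λ)) ≤ 10 * N := by
    rw [← hMr]
    linarith
  have e4 : 4 * (C1 * (C1 * h * Λ + 1)) + 11 * (h : ℝ)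
      ≤ 10 * ((C1 ^ 2 + C1 + C2 + 10) * (h * Λ)) := by
    have f1 : (h : ℝ) ≤ h * Λ := le_mul_of_one_le_right hhr.le hΛ
    have f2 : (C1 : ℝ) ≤ C1 * (h * Λ) := le_mul_of_one_le_right (by positivity) hhΛ
    have f3 : (0 : ℝ) ≤ C1 ^ 2 * (h * Λ) := by positivity
    have f4 : (0 : ℝ) ≤ C2 * (h * Λ) := by positivity
    have f5 : 4 * (C1 * (C1 * h * Λ + 1)) = 4 * ((C1 : ℝ) ^ 2 * (h * Λ)) + 4 * C1 := by ring
    have f6 : 10 * (((C1 : ℝ) ^ 2 + C1 + C2 + 10) * (h * Λ))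
        = 10 * ((C1 : ℝ) ^ 2 * (h * Λ)) + 10 * (C1 * (h * Λ)) + 10 * (C2 * (h * Λ))
          + 100 * (h * Λ) := by ring
    rw [f5, f6]
    have f7 : (0 : ℝ) ≤ h * Λ := by positivity
    have f8 : (0 : ℝ) ≤ C1 * (h * Λ) := by positivity
    linarith
  have e5 : 4 * ((C2 : ℝ) * N) + 10 * N ≤ K * N := by
    have h9 : (4 * (C2 : ℝ) + 10) * N ≤ K * N := by
      apply mul_le_mul_of_nonneg_right _ (by positivity)
      have : (0 : ℝ) ≤ C2 := by positivity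
      linarith
    linarith
  have h2 : (4 * ((P1 : ℝ) + P2) + 3) * h ≤ K * N := by linarith
  have h3 : ((4 * ((P1 : ℝ) + P2) + 3) * b) * h ≤ (N * m) * h := by
    calc ((4 * ((P1 : ℝ) + P2) + 3) * b) * h = ((4 * ((P1 : ℝ) + P2) + 3) * h) * b := by ring
      _ ≤ (K * N) * b := mul_le_mul_of_nonneg_right h2 hbpos.le
      _ = N * (K * b) := by ring
      _ ≤ N * (h * m) := mul_le_mul_of_nonneg_left hKbr (by positivity)
      _ = _ := by ring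
  have h4 := le_of_mul_le_mul_right h3 hhr
  exact_mod_cast h4

/-- the design from the parameters. -/
theorem des_par (hS : StrStmt) (hF : FillStmt) {ε : ℝ} (hε : 0 < ε) {C₀ j C1 C2 K M : ℕ}
    (hj3 : 3 ≤ j) (hjε : 2 / ε ≤ ((j - 1 : ℕ) : ℝ))
    (hK : K = 8 * C2 + 10 * j * (C₀ + 1) + 2 * j + 10) (hM : M = C1 ^ 2 + C1 + C2 + 10)
    (H2 : ∀ (b h R N P : ℕ) (S : Mid b h j R), 0 < R →
      R * h ≤ j * (b + 1) → C2 ≤ h → 100 * j ^ 2 * b ≤ h ^ 2 → 64 * h ≤ b →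
      (C2 : ℝ) * h * Real.log (b + 1) ≤ N → C2 * N ≤ P * h →
      ∀ len : Fin N → ℕ, (∀ c, R ≤ len c ∧ 4 * len c ≤ b ∧ len c * h ≤ 2 * j * b) →
      ∃ A : Fin N → Finset (Fin b), Cert S len P A)
    (H1 : ∀ (b h R N P : ℕ) (S : Mid b h j R), 0 < R →
      R * h ≤ j * (b + 1) → C1 ≤ h → 100 * j ^ 2 * b ≤ h ^ 2 → 64 * h ≤ b →
      (C1 : ℝ) * h * Real.log (b + 1) ≤ N → C1 * N ≤ P * h →
      ∀ len : Fin N → ℕ, (∀ c, R ≤ len c ∧ 4 * len c ≤ b ∧ len c * h ≤ (2 * K + 2) * b) →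
      ∃ A : Fin N → Finset (Fin b), Cert S len P A)
    {b m N : ℕ} (hbig : 64 * C₀ + 64 + C1 ^ 2 + C2 ^ 2 + 2 ^ (10 * j) ≤ b)
    (hb3' : (64 * 2 ^ j * (K + 1) : ℝ) ≤ (b : ℝ) ^ (ε / 2)) (hmε : (b : ℝ) ^ ε ≤ m)
    (hmb : m ^ 2 ≤ C₀ * b) (hN : ((2 * (K + 1) * M : ℕ) : ℝ) * (b / m) * Real.log b ≤ N)
    (len : Fin N → ℕ) (hlen : ∀ c, m ≤ len c ∧ len c ≤ 2 * m) :
    ∃ R : ℕ, R ≤ m ∧ Design b R N len := by
  have hp10 : 1 ≤ 2 ^ (10 * j) := Nat.one_le_two_pow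
  have hb64 : 64 ≤ b := by omega
  have hbpos : (0 : ℝ) < b := by exact_mod_cast (by omega : 0 < b)
  have hb1 : (1 : ℝ) ≤ b := by exact_mod_cast (by omega : 1 ≤ b)
  have hm1 : 1 ≤ m := by
    have h1 : (1 : ℝ) ≤ (b : ℝ) ^ ε := Real.one_le_rpow hb1 hε.le
    exact_mod_cast le_trans h1 hmε
  have hm8 : 8 * m ≤ b := by
    by_contra hc
    push Not at hc
    have h1 : b * b < (8 * m) * (8 * m) := Nat.mul_lt_mul'' hc hc
    have h2 : (8 * m) * (8 * m) = 64 * m ^ 2 := by ring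
    have h3 : 64 * m ^ 2 ≤ 64 * (C₀ * b) := Nat.mul_le_mul_left _ hmb
    have h4 : 64 * (C₀ * b) = (64 * C₀) * b := by ring
    have h5 : (64 * C₀) * b ≤ b * b := Nat.mul_le_mul_right _ (by omega)
    omega
  obtain ⟨h, hhpos, hh1, hh2, hsq⟩ := par_h (K := K) (C₀ := C₀) (j := j) hm1 (by omega)
    (by omega) hmb (by omega)
  have hbh : b ≤ h ^ 2 := by
    have h1 : 1 ≤ j ^ 2 := Nat.one_le_pow _ _ (by omega)
    calc b ≤ 100 * j ^ 2 * b := Nat.le_mul_of_pos_left _ (by omega)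
      _ ≤ _ := hsq
  have hC1h : C1 ≤ h := by
    by_contra hc
    push Not at hc
    have := Nat.pow_lt_pow_left hc (two_ne_zero)
    omega
  have hC2h : C2 ≤ h := by
    by_contra hc
    push Not at hc
    have := Nat.pow_lt_pow_left hc (two_ne_zero)
    omega
  have hhm : (h : ℝ) * m ≤ (K + 1) * b := by exact_mod_cast hh2
  have hhε : (h : ℝ) * (b : ℝ) ^ ε ≤ (K + 1) * b :=
    le_trans (mul_le_mul_of_nonneg_left hmε (by positivity)) hhm
  obtain ⟨h64, g, hg6, hgs, hgb, hgh⟩ := par_g hε hj3 hb64 hhpos hjε hb3' hhε hbh (by omega)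
  obtain ⟨R, hR0, hRh, ⟨S⟩⟩ := hS b h j g (by omega) hg6 hgs hgb hgh h64 (by
    calc 100 * j * b ≤ 100 * j ^ 2 * b := by
          apply Nat.mul_le_mul_right
          apply Nat.mul_le_mul_left
          rw [sq]
          exact Nat.le_mul_of_pos_left _ (by omega)
      _ ≤ _ := hsq)
  have hRh2 : R * h ≤ 2 * j * b := by
    calc R * h ≤ j * (b + 1) := hRh
      _ ≤ j * (2 * b) := Nat.mul_le_mul_left _ (by omega)
      _ = _ := by ring
  have hRm : R ≤ m := by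
    have h2 : R * h ≤ m * h := by
      calc R * h ≤ 2 * j * b := hRh2
        _ ≤ K * b := Nat.mul_le_mul_right _ (by omega)
        _ ≤ h * m := hh1
        _ = _ := mul_comm _ _
    exact Nat.le_of_mul_le_mul_right h2 hhpos
  have hlb : 1 ≤ Real.log ((b : ℝ) + 1) := by
    rw [Real.le_log_iff_exp_le (by positivity)]
    have h1 := Real.exp_one_lt_d9
    have h2 : (64 : ℝ) ≤ b := by exact_mod_cast hb64
    linarith
  have hl2 : Real.log ((b : ℝ) + 1) ≤ 2 * Real.log b := by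
    have h1 : Real.log ((b : ℝ) + 1) ≤ Real.log ((b : ℝ) ^ 2) := by
      apply Real.log_le_log (by positivity)
      have h2 : (64 : ℝ) ≤ b := by exact_mod_cast hb64
      nlinarith
    rw [Real.log_pow] at h1
    exact_mod_cast h1
  have hmr : (0 : ℝ) < m := by exact_mod_cast hm1
  have hhr : (0 : ℝ) < h := by exact_mod_cast hhpos
  have hhr1 : (1 : ℝ) ≤ h := by exact_mod_cast hhpos
  have hhbm : (h : ℝ) ≤ (K + 1) * (b / m) := by
    rw [← mul_div_assoc, le_div_iff₀ hmr]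
    exact hhm
  have hNM : (M : ℝ) * (h * Real.log ((b : ℝ) + 1)) ≤ N := by
    refine le_trans ?_ hN
    have hlogb : 0 ≤ Real.log b := Real.log_nonneg hb1
    calc (M : ℝ) * (h * Real.log ((b : ℝ) + 1))
        ≤ M * (((K + 1) * (b / m)) * (2 * Real.log b)) := by
          apply mul_le_mul_of_nonneg_left _ (by positivity)
          exact mul_le_mul hhbm hl2 (by linarith) (by positivity)
      _ = ((2 * (K + 1) * M : ℕ) : ℝ) * (b / m) * Real.log b := by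
          push_cast
          ring
  obtain ⟨Λ, hΛ⟩ : ∃ Λ : ℝ, Λ = Real.log ((b : ℝ) + 1) := ⟨_, rfl⟩
  rw [← hΛ] at hNM hlb hl2
  have hMr : (M : ℝ) = C1 ^ 2 + C1 + C2 + 10 := by
    rw [hM]
    push_cast
    ring
  have hhΛ : 1 ≤ (h : ℝ) * Λ := by nlinarith
  have hC1NM : (C1 : ℝ) * h * Λ + 1 ≤ M * (h * Λ) := by
    rw [hMr]
    have f1 : (0 : ℝ) ≤ C1 ^ 2 * (h * Λ) := by positivity
    have f2 : (0 : ℝ) ≤ C2 * (h * Λ) := by positivity
    linarith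
  have hC2NM : (C2 : ℝ) * h * Λ ≤ M * (h * Λ) := by
    rw [hMr]
    have f1 : (0 : ℝ) ≤ C1 ^ 2 * (h * Λ) := by positivity
    have f2 : (0 : ℝ) ≤ C1 * (h * Λ) := by positivity
    linarith
  obtain ⟨N1, hN1⟩ : ∃ N1 : ℕ, N1 = ⌈(C1 : ℝ) * h * Λ⌉₊ := ⟨_, rfl⟩
  have hN1a : (C1 : ℝ) * h * Λ ≤ N1 := by rw [hN1]; exact Nat.le_ceil _
  have hN1b : (N1 : ℝ) ≤ C1 * h * Λ + 1 := by
    rw [hN1]
    exact (Nat.ceil_lt_add_one (by positivity)).le
  have hN1N : N1 ≤ N := by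
    have h1 : (N1 : ℝ) ≤ N := le_trans hN1b (le_trans hC1NM hNM)
    exact_mod_cast h1
  obtain ⟨P1, hP1⟩ : ∃ P1 : ℕ, P1 = C1 * N1 / h + 1 := ⟨_, rfl⟩
  obtain ⟨P2, hP2⟩ : ∃ P2 : ℕ, P2 = C2 * N / h + 1 := ⟨_, rfl⟩
  have hP1a : C1 * N1 ≤ P1 * h := by
    have := Nat.lt_mul_div_succ (C1 * N1) hhpos
    rw [hP1, mul_comm _ h]
    exact this.le
  have hP2a : C2 * N ≤ P2 * h := by
    have := Nat.lt_mul_div_succ (C2 * N) hhpos
    rw [hP2, mul_comm _ h]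
    exact this.le
  have hP1b : (P1 : ℝ) * h ≤ C1 * N1 + h := by
    have h1 : P1 * h ≤ C1 * N1 + h := by
      rw [hP1, add_mul, one_mul]
      exact Nat.add_le_add_right (Nat.div_mul_le_self _ _) _
    exact_mod_cast h1
  have hP2b : (P2 : ℝ) * h ≤ C2 * N + h := by
    have h1 : P2 * h ≤ C2 * N + h := by
      rw [hP2, add_mul, one_mul]
      exact Nat.add_le_add_right (Nat.div_mul_le_self _ _) _
    exact_mod_cast h1
  have hRb4 : 4 * R ≤ b := by omega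
  rw [hΛ] at hN1a hC2NM hNM
  obtain ⟨A1, hA1⟩ := H1 b h R N1 P1 S hR0 hRh hC1h hsq h64 hN1a hP1a
    (fun c => len (Fin.castLE hN1N c)) (fun c => by
      have h1 := hlen (Fin.castLE hN1N c)
      refine ⟨by omega, by omega, ?_⟩
      calc len (Fin.castLE hN1N c) * h ≤ (2 * m) * h := Nat.mul_le_mul_right _ h1.2
        _ = 2 * (h * m) := by ring
        _ ≤ 2 * ((K + 1) * b) := Nat.mul_le_mul_left _ hh2
        _ = (2 * K + 2) * b := by ring)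
  obtain ⟨A2, hA2⟩ := H2 b h R N P2 S hR0 hRh hC2h hsq h64 (le_trans hC2NM hNM) hP2a
    (fun _ => R) (fun c => ⟨le_rfl, hRb4, hRh2⟩)
  refine ⟨R, hRm, des_core hF (e := b / 2) S (by omega) hN1N len A1 hA1 A2 hA2.2.1 hA2.1
    hA2.2.2.1 (fun c => le_trans hRm (hlen c).1) (fun c => by have := hlen c; omega) ?_⟩
  rw [← hΛ] at hNM
  have hnum := par_num (by omega) hhpos hlb hK hM hh1 hNM hN1b hP1b hP2b
  have hκ : 4 * (P1 + P2) + 3 ≤ (∑ c, len c) / b := by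
    rw [Nat.le_div_iff_mul_le (by omega)]
    have h1 : N * m ≤ ∑ c, len c := by
      calc N * m = ∑ _c : Fin N, m := by simp
        _ ≤ _ := sum_le_sum fun c _ => (hlen c).1
    exact le_trans hnum h1
  generalize P1 + P2 = p at hκ ⊢
  have he : 1 ≤ b / 2 := by omega
  have hb3e : b ≤ 3 * (b / 2) := by omega
  calc b * (p + 1) + b / 2 * p ≤ 3 * (b / 2) * (p + 1) + b / 2 * p :=
        Nat.add_le_add_right (Nat.mul_le_mul_right _ hb3e) _
    _ = (b / 2) * (4 * p + 3) := by ring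
    _ < (b / 2) * (4 * p + 4) := Nat.mul_lt_mul_of_pos_left (by omega) (by omega)
    _ ≤ _ := Nat.mul_le_mul_left _ (by omega)

theorem des_mid (hS : StrStmt) (hH : HitStmt) (hF : FillStmt) : DesMid := by
  intro ε₀ C₀ hε₀
  obtain ⟨ε, hεd⟩ : ∃ ε : ℝ, ε = min ε₀ (1 / 2) := ⟨_, rfl⟩
  have hε : 0 < ε := by rw [hεd]; exact lt_min hε₀ (by norm_num)
  obtain ⟨j, hj⟩ : ∃ j : ℕ, j = ⌈2 / ε⌉₊ + 3 := ⟨_, rfl⟩
  have hj3 : 3 ≤ j := by omega
  have hjε : 2 / ε ≤ ((j - 1 : ℕ) : ℝ) := by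
    have h1 : 2 / ε ≤ (⌈2 / ε⌉₊ : ℝ) := Nat.le_ceil _
    have h2 : (⌈2 / ε⌉₊ : ℝ) ≤ ((j - 1 : ℕ) : ℝ) := by
      exact_mod_cast (by omega : ⌈2 / ε⌉₊ ≤ j - 1)
    linarith
  obtain ⟨C2, hC2, H2⟩ := hH j (2 * j) (by omega)
  obtain ⟨K, hK⟩ : ∃ K : ℕ, K = 8 * C2 + 10 * j * (C₀ + 1) + 2 * j + 10 := ⟨_, rfl⟩
  obtain ⟨C1, hC1, H1⟩ := hH j (2 * K + 2) (by omega)
  obtain ⟨M, hM⟩ : ∃ M : ℕ, M = C1 ^ 2 + C1 + C2 + 10 := ⟨_, rfl⟩
  have hlim : ∀ᶠ x : ℝ in Filter.atTop, (64 * 2 ^ j * (K + 1) : ℝ) ≤ x ^ (ε / 2) :=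
    (tendsto_rpow_atTop (by positivity)).eventually_ge_atTop _
  obtain ⟨b3, hb3⟩ := Filter.eventually_atTop.1
    ((tendsto_natCast_atTop_atTop (R := ℝ)).eventually hlim)
  refine ⟨2 * (K + 1) * M, max b3 (64 * C₀ + 64 + C1 ^ 2 + C2 ^ 2 + 2 ^ (10 * j)),
    fun b m N hb hm hmb hN len hlen => ?_⟩
  have hb3' := hb3 b (le_trans (le_max_left _ _) hb)
  have hbig : 64 * C₀ + 64 + C1 ^ 2 + C2 ^ 2 + 2 ^ (10 * j) ≤ b :=
    le_trans (le_max_right _ _) hb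
  have hb1 : (1 : ℝ) ≤ b := by
    have hp10 : 1 ≤ 2 ^ (10 * j) := Nat.one_le_two_pow
    exact_mod_cast (by omega : 1 ≤ b)
  have hmε : (b : ℝ) ^ ε ≤ m := by
    refine le_trans (Real.rpow_le_rpow_of_exponent_le hb1 ?_) hm
    rw [hεd]
    exact min_le_left _ _
  exact des_par hS hF hε hj3 hjε hK hM H2 H1 hbig hb3' hmε hmb hN len hlen

end Vale.Agent.P181.S6
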