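import Vale.Agent.P181.H502.Semi

/-!
P181, T7 (helper502): the decomposition lemma `(DEC)`.
-/

set_option autoImplicit false

namespace Vale.Agent.P181.H502

open Vale.Agent.P181 Vale.Agent.P181.H280 Vale.Agent.P181.FR

/-- `c` copies of `(E_j)`. -/
theorem pos_E_mul {m j a : ℕ} (hjm : j ≤ m) (hja : j < a) (c : ℕ) :
    Pos (2 * j * c) a m ((2 * a * c) • om m j) := by
  induction c with
  | zero => simpa using Pos.zero a m
  | succ c ih =>
    have h1 := Pos.mul ih (pos_E hjm hja)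
    rw [← add_smul] at h1
    rw [Nat.mul_succ, Nat.mul_succ]
    exact h1

theorem pos_E_sum {m R a : ℕ} (hRm : R ≤ m) (hRa : R < a) (c : ℕ → ℕ) (s : Finset ℕ)
    (hs : ∀ j ∈ s, j ≤ R) :
    Pos (∑ j ∈ s, 2 * j * c j) a m (∑ j ∈ s, (2 * a * c j) • om m j) := by
  classical
  induction s using Finset.induction_on with
  | empty => simpa using Pos.zero a m
  | insert j s hj ih =>
    rw [Finset.sum_insert hj, Finset.sum_insert hj]
    have hjR := hs j (Finset.mem_insert_self j s)
    exact Pos.mul (pos_E_mul (hjR.trans hRm) (lt_of_le_of_lt hjR hRa) (c j))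
      (ih (fun i hi => hs i (Finset.mem_insert_of_mem hi)))

/-- **(DEC)** Peeling off columns of length at most `R`. -/
theorem dec (a n N k i x R : ℕ) (c : ℕ → ℕ) (mu lam : Fin n → ℕ) (hi : 1 ≤ i) (hiN : i ≤ N)
    (hin : i ≤ n) (hRa : R < a) (hRn : R ≤ n) (hk : k ≤ a) (hdvd : 2 * i ∣ a - k)
    (hx : i * x = N * (a - k))
    (hlam : ∀ s : Fin n, lam s = mu s + (if (s : ℕ) < i then x else 0) +
      ∑ j ∈ Finset.Icc 1 R, if (s : ℕ) < j then 2 * a * c j else 0) :
    plethMult N k n mu ≤ plethMult (N + ∑ j ∈ Finset.Icc 1 R, 2 * j * c j) a n lam := by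
  obtain ⟨t, ht⟩ := hdvd
  have hxt : x = 2 * N * t := by
    rw [ht] at hx
    have h1 : i * x = i * (2 * N * t) := by
      rw [hx]; ring
    exact Nat.eq_of_mul_eq_mul_left (by omega) h1
  have r1 := plethMult_pt (c := k) (lam := mu) (pos_Q t hin hiN hi)
  rw [← ht, Nat.sub_add_cancel hk] at r1
  have r2 := plethMult_mul (b := N) (lam := (2 * N * t) • om n i + mu)
    (pos_E_sum (m := n) hRn hRa c (Finset.Icc 1 R) (fun j hj => (Finset.mem_Icc.1 hj).2))
  have e : ((2 * N * t) • om n i + mu) + ∑ j ∈ Finset.Icc 1 R, (2 * a * c j) • om n j = lam := by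
    funext s
    rw [hlam s, Pi.add_apply, Pi.add_apply, Finset.sum_apply, hxt]
    congr 1
    · rw [add_comm]
      congr 1
      rw [Pi.smul_apply, smul_eq_mul, om]
      by_cases h : (s : ℕ) < i
      · rw [if_pos h, if_pos h, mul_one]
      · rw [if_neg h, if_neg h, mul_zero]
    · apply Finset.sum_congr rfl
      intro j _
      rw [Pi.smul_apply, smul_eq_mul, om]
      by_cases h : (s : ℕ) < j
      · rw [if_pos h, if_pos h, mul_one]
      · rw [if_neg h, if_neg h, mul_zero]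
  rw [e] at r2
  exact r1.trans r2

/-- The literal form used by the assemblies. -/
def DecStmt : Prop := ∀ (a n N k i x R : ℕ) (c : ℕ → ℕ) (mu lam : Fin n → ℕ), 1 ≤ i → i ≤ N →
  i ≤ n → R < a → R ≤ n → k ≤ a → 2 * i ∣ a - k → i * x = N * (a - k) →
  (∀ s : Fin n, lam s = mu s + (if (s : ℕ) < i then x else 0) +
    ∑ j ∈ Finset.Icc 1 R, if (s : ℕ) < j then 2 * a * c j else 0) →
  plethMult N k n mu ≤ plethMult (N + ∑ j ∈ Finset.Icc 1 R, 2 * j * c j) a n lam

theorem dec_stmt : DecStmt := dec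

end Vale.Agent.P181.H502
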