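import Vale.Agent.P181.H502.Gaps
import Vale.Agent.P181.H186.Win3
import Vale.Agent.P181.H676.Rate
import Vale.Agent.P181.T4.Typ

/-! P181: almost all partitions of `a b` with at most `a` parts are typical. -/

set_option autoImplicit false

namespace Vale.Agent.P181.H502

open Finset Filter Topology
open Vale.Agent.P181.H676 Vale.Agent.P181.H106

/-- the numerical conditions -/
theorem numerics {δ : ℝ} (hδ : 0 < δ) (hδ2 : δ ≤ 2 / 5) (K : ℕ) :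
    ∀ᶠ a : ℕ in atTop, 256 ≤ a ∧ ⌊(a : ℝ) ^ δ⌋₊ ≤ a ∧
      256 * (a : ℝ) ≤ 2 ^ (⌊(a : ℝ) ^ (δ / 2)⌋₊) ∧
      8 * (a : ℝ) ^ 4 ≤ 2 ^ (⌊40 * Real.log a⌋₊ / 4) ∧
      1904 * (41 * (K : ℝ) + 1) * Real.log a ≤ (a : ℝ) ^ δ ∧ 1 ≤ Real.log a := by
  have hlog : ∀ c : ℝ, 0 < c → ∀ r : ℝ, 0 < r →
      ∀ᶠ a : ℕ in atTop, Real.log a ≤ c * (a : ℝ) ^ r := by
    intro c hc r hr
    have h := (isLittleO_log_rpow_atTop hr).comp_tendsto tendsto_natCast_atTop_atTop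
    filter_upwards [h.bound hc, eventually_ge_atTop 1] with a ha ha1
    simp only [Function.comp, Real.norm_eq_abs] at ha
    have h2 : 0 ≤ (a : ℝ) ^ r := Real.rpow_nonneg (Nat.cast_nonneg a) r
    rw [abs_of_nonneg h2] at ha
    exact (le_abs_self _).trans ha
  have hC : (0 : ℝ) < 1904 * (41 * (K : ℝ) + 1) := by positivity
  filter_upwards [hlog (1 / (1904 * (41 * (K : ℝ) + 1))) (by positivity) δ hδ,
    hlog (1 / 8) (by norm_num) (δ / 2) (by positivity),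
    eventually_ge_atTop 512] with a h3 h4 h5
  have ha : (0 : ℝ) < a := by exact_mod_cast (by omega : 0 < a)
  have ha1 : (1 : ℝ) ≤ a := by exact_mod_cast (by omega : 1 ≤ a)
  have hl1 : 1 ≤ Real.log a := by
    have e1 : Real.exp 1 ≤ a := by
      have := Real.exp_one_lt_d9
      have h3' : (3 : ℝ) ≤ a := by exact_mod_cast (by omega : 3 ≤ a)
      linarith
    rw [← Real.log_exp 1]
    exact Real.log_le_log (Real.exp_pos 1) e1
  obtain ⟨y, hyd⟩ : ∃ y, y = (a : ℝ) ^ (δ / 2) := ⟨_, rfl⟩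
  rw [← hyd] at h4 ⊢
  have hf2 : y < (⌊y⌋₊ : ℝ) + 1 := Nat.lt_floor_add_one y
  refine ⟨by omega, ?_, ?_, ?_, ?_, hl1⟩
  · refine Nat.floor_le_of_le ?_
    calc (a : ℝ) ^ δ ≤ (a : ℝ) ^ (1 : ℝ) := Real.rpow_le_rpow_of_exponent_le ha1 (by linarith)
      _ = a := Real.rpow_one _
  · have e1 : (512 : ℝ) ≤ a := by exact_mod_cast h5
    have e2 : 2 * (256 * (a : ℝ)) ≤ (a : ℝ) ^ 2 := by nlinarith
    have e3 : (a : ℝ) ^ 2 = Real.exp (2 * Real.log a) := by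
      rw [mul_comm, Real.exp_mul, Real.exp_log ha]
      norm_num
    have e4 : Real.exp (2 * Real.log a) ≤ Real.exp (((⌊y⌋₊ : ℝ) + 1) * Real.log 2) := by
      refine Real.exp_le_exp.2 ?_
      have hl2 : (0.6931471803 : ℝ) < Real.log 2 := Real.log_two_gt_d9
      have : y * Real.log 2 ≤ ((⌊y⌋₊ : ℝ) + 1) * Real.log 2 :=
        mul_le_mul_of_nonneg_right hf2.le (by linarith)
      nlinarith
    have e5 : Real.exp (((⌊y⌋₊ : ℝ) + 1) * Real.log 2) = 2 * 2 ^ ⌊y⌋₊ := by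
      rw [mul_comm, Real.exp_mul, Real.exp_log (by norm_num)]
      rw [Real.rpow_add (by norm_num), Real.rpow_natCast, Real.rpow_one]
      ring
    linarith
  · have e0 : (0 : ℝ) ≤ 40 * Real.log a := by linarith
    have e1 : 40 * Real.log a < (⌊40 * Real.log a⌋₊ : ℝ) + 1 := Nat.lt_floor_add_one _
    obtain ⟨s, hs⟩ : ∃ s, s = ⌊40 * Real.log a⌋₊ := ⟨_, rfl⟩
    rw [← hs] at e1 ⊢
    have e2 : (s : ℝ) ≤ 4 * ((s / 4 : ℕ) : ℝ) + 3 := by
      have : s ≤ 4 * (s / 4) + 3 := by omega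
      exact_mod_cast this
    have e3 : 10 * Real.log a - 1 ≤ ((s / 4 : ℕ) : ℝ) := by linarith
    have hl2 : (0.6931471803 : ℝ) < Real.log 2 := Real.log_two_gt_d9
    have hl2' : Real.log 2 < 0.6931471808 := Real.log_two_lt_d9
    have e4 : 5 * Real.log a ≤ ((s / 4 : ℕ) : ℝ) * Real.log 2 := by nlinarith
    have e5 : (a : ℝ) ^ 5 = Real.exp (5 * Real.log a) := by
      rw [mul_comm, Real.exp_mul, Real.exp_log ha]
      norm_num
    have e6 : Real.exp (((s / 4 : ℕ) : ℝ) * Real.log 2) = 2 ^ (s / 4) := by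
      rw [mul_comm, Real.exp_mul, Real.exp_log (by norm_num), Real.rpow_natCast]
    have e7 : 8 * (a : ℝ) ^ 4 ≤ (a : ℝ) ^ 5 := by
      have h8 : (8 : ℝ) ≤ a := by exact_mod_cast (by omega : 8 ≤ a)
      have : (a : ℝ) ^ 5 = a * a ^ 4 := by ring
      rw [this]
      exact mul_le_mul_of_nonneg_right h8 (by positivity)
    rw [← e6]
    exact e7.trans (e5 ▸ Real.exp_le_exp.2 e4)
  · rw [one_div, inv_mul_eq_div, le_div_iff₀ hC] at h3
    linarith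

open Classical in
theorem typical_fin {n b R R1 K L s : ℕ} {e : ℝ} (hn : 1 ≤ n) (hb : n + 1 ≤ b)
    (hs : s * b ≤ L) (hR : R ≤ n + 1)
    (h3 : ((((Lam (n + 1) ((n + 1) * b)).filter
      fun l => ¬ (nx l R + K * b ≤ nx l R1 ∧ K * ((n + 1) + b) ≤ nx l R)).card : ℕ) : ℝ) *
        2 ^ R1 ≤ 64 * ((Lam (n + 1) ((n + 1) * b)).card : ℝ))
    (he1 : (((n + 1) * b + 1 : ℕ) : ℝ) ≤ e / 4 * 2 ^ (s / 4))
    (he2 : 119 * (((K * (L / (n + 1) + 1) : ℕ) : ℝ) + 1) * ((R : ℝ) + 1) ^ 2 ≤ e / 4 * b)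
    (he3 : (64 : ℝ) ≤ e / 4 * 2 ^ R1) (he : 0 ≤ e) :
    ((((Lam (n + 1) ((n + 1) * b)).filter fun l => ¬ T4.Typ (n + 1) b R R1 K L l).card : ℕ) : ℝ) ≤
      e * (((Lam (n + 1) ((n + 1) * b)).card : ℕ) : ℝ) := by
  have hL0 : (0 : ℝ) ≤ (((Lam (n + 1) ((n + 1) * b)).card : ℕ) : ℝ) := Nat.cast_nonneg _
  set Lm := Lam (n + 1) ((n + 1) * b) with hLm
  have b1 := bad_le (a := n + 1) (b := b) (s := s) (by omega) (by omega)
  rw [← hLm] at b1
  have b2 := gaps_small (n := n) (b := b) (D := R) (Y := K * (L / (n + 1) + 1)) hn hb (by omega)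
  rw [← hLm] at b2
  set B1 := Lm.filter fun l => ¬ ∀ i, l i ≤ s * b with hB1
  set B2 := Lm.filter fun l => ∃ d < R, gap l d ≤ K * (L / (n + 1) + 1) with hB2
  set B3 := Lm.filter
    fun l => ¬ (nx l R + K * b ≤ nx l R1 ∧ K * ((n + 1) + b) ≤ nx l R) with hB3
  have hsub : (Lm.filter fun l => ¬ T4.Typ (n + 1) b R R1 K L l) ⊆ (B1 ∪ B2) ∪ B3 := by
    intro l hl
    rw [Finset.mem_filter] at hl
    by_contra hne
    rw [Finset.mem_union, Finset.mem_union, not_or, not_or] at hne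
    refine hl.2 ?_
    have hl1 := (mem_Lam.1 hl.1).1
    have e1 : ∀ i, l i ≤ s * b := by
      by_contra h
      exact hne.1.1 (Finset.mem_filter.2 ⟨hl.1, h⟩)
    have e2 : ¬ ∃ d < R, gap l d ≤ K * (L / (n + 1) + 1) :=
      fun h => hne.1.2 (Finset.mem_filter.2 ⟨hl.1, h⟩)
    have e3 : nx l R + K * b ≤ nx l R1 ∧ K * ((n + 1) + b) ≤ nx l R := by
      by_contra h
      exact hne.2 (Finset.mem_filter.2 ⟨hl.1, h⟩)
    have hex : ∀ i, T4.ex l i = nx l i := fun i => rfl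
    refine ⟨?_, ?_, ?_, ?_⟩
    · rw [hex]
      have : nx l 0 = l 0 := by unfold nx; rw [dif_pos (by omega)]; rfl
      rw [this]
      exact (e1 0).trans hs
    · rw [hex, hex]
      exact e3.1
    · intro i hi
      rw [hex, hex]
      have h1 : ¬ gap l i ≤ K * (L / (n + 1) + 1) := fun h => e2 ⟨i, hi, h⟩
      unfold gap at h1
      omega
    · rw [hex]
      exact e3.2
  have hcard : ((Lm.filter fun l => ¬ T4.Typ (n + 1) b R R1 K L l).card : ℝ) ≤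
      (B1.card : ℝ) + B2.card + B3.card := by
    have h1 := (Finset.card_le_card hsub).trans (Finset.card_union_le _ _)
    have h2 := Finset.card_union_le B1 B2
    exact_mod_cast h1.trans (Nat.add_le_add_right h2 _)
  have c1 : (B1.card : ℝ) ≤ e / 4 * Lm.card := by
    have h1 : (B1.card : ℝ) * 2 ^ (s / 4) ≤ (((n + 1) * b + 1 : ℕ) : ℝ) * Lm.card := by
      exact_mod_cast b1
    have hp : (0 : ℝ) < 2 ^ (s / 4) := by positivity
    refine le_of_mul_le_mul_right ?_ hp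
    calc (B1.card : ℝ) * 2 ^ (s / 4) ≤ (((n + 1) * b + 1 : ℕ) : ℝ) * Lm.card := h1
      _ ≤ (e / 4 * 2 ^ (s / 4)) * Lm.card := mul_le_mul_of_nonneg_right he1 hL0
      _ = _ := by ring
  have c2 : (B2.card : ℝ) ≤ e / 4 * Lm.card := by
    have hp : (0 : ℝ) < b := by exact_mod_cast (by omega : 0 < b)
    refine le_of_mul_le_mul_right ?_ hp
    calc (B2.card : ℝ) * b ≤ 119 * (((K * (L / (n + 1) + 1) : ℕ) : ℝ) + 1) * ((R : ℝ) + 1) ^ 2 *
          Lm.card := b2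
      _ ≤ (e / 4 * b) * Lm.card := mul_le_mul_of_nonneg_right he2 hL0
      _ = _ := by ring
  have c3 : (B3.card : ℝ) ≤ e / 4 * Lm.card := by
    have hp : (0 : ℝ) < 2 ^ R1 := by positivity
    refine le_of_mul_le_mul_right ?_ hp
    calc (B3.card : ℝ) * 2 ^ R1 ≤ 64 * Lm.card := h3
      _ ≤ (e / 4 * 2 ^ R1) * Lm.card := mul_le_mul_of_nonneg_right he3 hL0
      _ = _ := by ring
  have c4 : 0 ≤ e * (Lm.card : ℝ) := mul_nonneg he hL0
  linarith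

open Classical in
/-- **Almost all partitions are typical**, `A0 = 40`. -/
theorem typical {δ : ℝ} (hδ : 0 < δ) (hδ2 : δ ≤ 2 / 5) (K : ℕ) :
    ∀ᶠ a : ℕ in atTop, ∀ b : ℕ, a ≤ b → b ≤ a ^ 2 →
      ((T4.All a b ∩ {lam | ¬ T4.Typ a b ⌊(a : ℝ) ^ δ⌋₊ ⌊(a : ℝ) ^ (δ / 2)⌋₊ K
        ⌊40 * b * Real.log a⌋₊ lam}).ncard : ℝ) ≤
        (a : ℝ) ^ (3 * δ - 1) * ((T4.All a b).ncard : ℝ) := by
  filter_upwards [numerics hδ hδ2 K, H186.e24_Lam δ hδ (by linarith) K] with a h hwin b hab hba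
  obtain ⟨h1, h3, h5, h6, h7, h8⟩ := h
  obtain ⟨n, rfl⟩ : ∃ n, a = n + 1 := ⟨a - 1, by omega⟩
  have ha : (0 : ℝ) < ((n + 1 : ℕ) : ℝ) := by exact_mod_cast (by omega : 0 < n + 1)
  have ha1 : (1 : ℝ) ≤ ((n + 1 : ℕ) : ℝ) := by exact_mod_cast (by omega : 1 ≤ n + 1)
  have hba' : (b : ℝ) ≤ ((n + 1 : ℕ) : ℝ) ^ 2 := by exact_mod_cast hba
  have hab' : ((n + 1 : ℕ) : ℝ) ≤ b := by exact_mod_cast hab
  have hw := hwin b n hab rfl
  have e1 : T4.All (n + 1) b = ↑(Lam (n + 1) ((n + 1) * b)) := by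
    ext l
    rw [Finset.mem_coe, mem_Lam]
    rfl
  have e2 : T4.All (n + 1) b ∩ {lam | ¬ T4.Typ (n + 1) b ⌊((n + 1 : ℕ) : ℝ) ^ δ⌋₊
      ⌊((n + 1 : ℕ) : ℝ) ^ (δ / 2)⌋₊ K ⌊40 * b * Real.log ((n + 1 : ℕ) : ℝ)⌋₊ lam} =
      ↑((Lam (n + 1) ((n + 1) * b)).filter fun l => ¬ T4.Typ (n + 1) b ⌊((n + 1 : ℕ) : ℝ) ^ δ⌋₊
      ⌊((n + 1 : ℕ) : ℝ) ^ (δ / 2)⌋₊ K ⌊40 * b * Real.log ((n + 1 : ℕ) : ℝ)⌋₊ l) := by
    ext l
    rw [Finset.mem_coe, Finset.mem_filter, ← Finset.mem_coe, ← e1]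
    rfl
  rw [e2, e1, Set.ncard_coe_finset, Set.ncard_coe_finset]
  obtain ⟨A, hA⟩ : ∃ A : ℝ, A = ((n + 1 : ℕ) : ℝ) := ⟨_, rfl⟩
  rw [← hA] at h3 h5 h6 h7 h8 ha ha1 hba' hab' hw ⊢
  obtain ⟨y, hyd⟩ : ∃ y, y = A ^ δ := ⟨_, rfl⟩
  have hy1 : 1 ≤ y := by rw [hyd]; exact Real.one_le_rpow ha1 hδ.le
  have hy3 : A ^ (3 * δ - 1) = y ^ 3 / A := by
    rw [Real.rpow_sub ha, Real.rpow_one, hyd, ← Real.rpow_natCast (A ^ δ), ← Real.rpow_mul ha.le]
    congr 2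
    push_cast
    ring
  have hge : 1 / A ≤ A ^ (3 * δ - 1) := by
    rw [hy3]
    exact div_le_div_of_nonneg_right (one_le_pow₀ hy1) ha.le
  refine typical_fin (n := n) (b := b) (s := ⌊40 * Real.log A⌋₊)
    (by omega) hab ?_ h3 hw ?_ ?_ ?_ (by rw [hy3]; positivity)
  · refine Nat.le_floor ?_
    push_cast
    have hfl : (⌊40 * Real.log A⌋₊ : ℝ) ≤ 40 * Real.log A := Nat.floor_le (by linarith)
    have hb0 : (0 : ℝ) ≤ b := Nat.cast_nonneg b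
    have := mul_le_mul_of_nonneg_right hfl hb0
    linarith
  · have g1 : (((n + 1) * b + 1 : ℕ) : ℝ) ≤ 2 * A ^ 3 := by
      have : (((n + 1) * b + 1 : ℕ) : ℝ) = A * b + 1 := by rw [hA]; push_cast; ring
      rw [this]
      have g2 : A * b ≤ A * A ^ 2 := mul_le_mul_of_nonneg_left hba' ha.le
      have g3 : (1 : ℝ) ≤ A ^ 3 := one_le_pow₀ ha1
      have g4 : A * A ^ 2 = A ^ 3 := by ring
      linarith
    have hp : (0 : ℝ) < 2 ^ (⌊40 * Real.log A⌋₊ / 4) := by positivity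
    calc (((n + 1) * b + 1 : ℕ) : ℝ) ≤ 2 * A ^ 3 := g1
      _ = 1 / A / 4 * (8 * A ^ 4) := by field_simp; ring
      _ ≤ 1 / A / 4 * 2 ^ (⌊40 * Real.log A⌋₊ / 4) :=
          mul_le_mul_of_nonneg_left h6 (by positivity)
      _ ≤ A ^ (3 * δ - 1) / 4 * 2 ^ (⌊40 * Real.log A⌋₊ / 4) := by
          refine mul_le_mul_of_nonneg_right ?_ hp.le
          linarith
  · have hb0 : (0 : ℝ) < b := lt_of_lt_of_le ha hab'
    have hlA : 0 ≤ 40 * (b : ℝ) * Real.log A := by positivity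
    obtain ⟨L, hL⟩ : ∃ L, L = ⌊40 * (b : ℝ) * Real.log A⌋₊ := ⟨_, rfl⟩
    have hL1 : (L : ℝ) ≤ 40 * b * Real.log A := by rw [hL]; exact Nat.floor_le hlA
    rw [← hL]
    have g1 : ((L / (n + 1) : ℕ) : ℝ) ≤ 40 * b * Real.log A / A := by
      refine le_trans Nat.cast_div_le ?_
      rw [← hA]
      exact div_le_div_of_nonneg_right hL1 ha.le
    obtain ⟨x, hx⟩ : ∃ x, x = b * Real.log A / A := ⟨_, rfl⟩
    have hx1 : 1 ≤ x := by
      rw [hx, le_div_iff₀ ha, one_mul]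
      have := mul_le_mul hab' h8 zero_le_one hb0.le
      linarith
    have g2 : 40 * b * Real.log A / A = 40 * x := by rw [hx]; ring
    rw [g2] at g1
    have hK0 : (0 : ℝ) ≤ K := Nat.cast_nonneg K
    have g3 : ((K * (L / (n + 1) + 1) : ℕ) : ℝ) + 1 ≤ (41 * K + 1) * x := by
      have q1 : ((K * (L / (n + 1) + 1) : ℕ) : ℝ) = K * (((L / (n + 1) : ℕ) : ℝ) + 1) := by
        push_cast; ring
      rw [q1]
      have q2 : (K : ℝ) * (((L / (n + 1) : ℕ) : ℝ) + 1) ≤ K * (41 * x) :=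
        mul_le_mul_of_nonneg_left (by linarith) hK0
      linarith
    have g4 : (⌊A ^ δ⌋₊ : ℝ) + 1 ≤ 2 * y := by
      have := Nat.floor_le (Real.rpow_nonneg ha.le δ)
      rw [← hyd] at this ⊢
      linarith
    have g5 : ((⌊A ^ δ⌋₊ : ℝ) + 1) ^ 2 ≤ (2 * y) ^ 2 := by
      refine pow_le_pow_left₀ (by positivity) g4 2
    have hx0 : 0 ≤ x := by linarith
    calc 119 * (((K * (L / (n + 1) + 1) : ℕ) : ℝ) + 1) * ((⌊A ^ δ⌋₊ : ℝ) + 1) ^ 2
        ≤ 119 * ((41 * K + 1) * x) * (2 * y) ^ 2 := by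
          refine mul_le_mul (mul_le_mul_of_nonneg_left g3 (by norm_num)) g5 (by positivity)
            (by positivity)
      _ = (1904 * (41 * K + 1) * Real.log A) * (y ^ 2 * b / A) / 4 := by rw [hx]; ring
      _ ≤ y * (y ^ 2 * b / A) / 4 := by
          have : 0 ≤ y ^ 2 * b / A := by positivity
          have h7' : 1904 * (41 * (K : ℝ) + 1) * Real.log A ≤ y := by rw [hyd]; exact h7
          have := mul_le_mul_of_nonneg_right h7' this
          linarith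
      _ = A ^ (3 * δ - 1) / 4 * b := by rw [hy3]; ring
  · have hp : (0 : ℝ) < 2 ^ ⌊A ^ (δ / 2)⌋₊ := by positivity
    calc (64 : ℝ) = 1 / A / 4 * (256 * A) := by field_simp; norm_num
      _ ≤ 1 / A / 4 * 2 ^ ⌊A ^ (δ / 2)⌋₊ := mul_le_mul_of_nonneg_left h5 (by positivity)
      _ ≤ A ^ (3 * δ - 1) / 4 * 2 ^ ⌊A ^ (δ / 2)⌋₊ := by
          refine mul_le_mul_of_nonneg_right ?_ hp.le
          linarith

/-- **(E)** -/
theorem e_stmt : T4.EStmt := fun _ hδ hδ2 K => ⟨40, by norm_num, typical hδ hδ2 K⟩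

end Vale.Agent.P181.H502
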