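import Vale.Agent.P181.T6.Spec
import Mathlib.Algebra.MvPolynomial.Funext

/-!
P181, T6 (helper502): the algebra `AlgStmt`.
-/

set_option autoImplicit false

open MvPolynomial
open scoped Classical

namespace Vale.Agent.P181.H502

open Vale.Agent.P181.FR Vale.Agent.P181.H188W Vale.Agent.P181.T4 Vale.Agent.P181.T6

/-- The determinant of a matrix in which, for each of the first `R` indices, the row or the column
is zero off the diagonal. -/
lemma det_cross {n R : ℕ} (hR : R ≤ n) {A : Type*} [CommRing A] (M : Matrix (Fin n) (Fin n) A)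
    (S : Fin n → Prop) (h1 : ∀ j : Fin n, (j : ℕ) < R → ¬ S j → ∀ k, k ≠ j → M j k = 0)
    (h2 : ∀ k : Fin n, (k : ℕ) < R → S k → ∀ j, j ≠ k → M j k = 0) :
    M.det = (∏ i : Fin R, M ⟨i, by omega⟩ ⟨i, by omega⟩) *
      Matrix.det (Matrix.of fun j k : Fin (n - R) => M ⟨R + j, by omega⟩ ⟨R + k, by omega⟩) := by
  set M' : Matrix (Fin n) (Fin n) A := Matrix.of fun j k =>
    if (j : ℕ) < R ∨ (k : ℕ) < R then (if j = k then M j k else 0) else M j k with hM'
  have h3 : M.det = M'.det := by
    rw [Matrix.det_apply, Matrix.det_apply]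
    apply Finset.sum_congr rfl
    intro σ _
    congr 1
    by_cases hσ : ∀ k : Fin n, (k : ℕ) < R → σ k = k
    · apply Finset.prod_congr rfl
      intro k _
      rw [hM', Matrix.of_apply]
      by_cases hk : (k : ℕ) < R
      · rw [hσ k hk, if_pos (Or.inl hk), if_pos rfl]
      · rw [if_neg]
        rintro (h | h)
        · have h4 := hσ (σ k) h
          rw [σ.injective h4] at h
          exact hk h
        · exact hk h
    · push Not at hσ
      obtain ⟨k0, hk0, hne⟩ := hσ
      have h4 : M' (σ k0) k0 = 0 := by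
        rw [hM', Matrix.of_apply, if_pos (Or.inr hk0), if_neg hne]
      have h4' : ∏ i, M' (σ i) i = 0 :=
        Finset.prod_eq_zero (f := fun i => M' (σ i) i) (Finset.mem_univ k0) h4
      rw [h4']
      by_cases hS : S k0
      · exact Finset.prod_eq_zero (f := fun i => M (σ i) i) (Finset.mem_univ k0)
          (h2 k0 hk0 hS _ hne)
      · apply Finset.prod_eq_zero (f := fun i => M (σ i) i) (Finset.mem_univ (σ.symm k0))
        simp only [Equiv.apply_symm_apply]
        apply h1 k0 hk0 hS
        intro h5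
        apply hne
        rw [Equiv.symm_apply_eq] at h5
        exact h5.symm
  have hlen : R + (n - R) = n := by omega
  set e0 : Fin R ⊕ Fin (n - R) ≃ Fin n := finSumFinEquiv.trans (finCongr hlen) with he0
  have h0 : ∀ j : Fin R, ((e0 (Sum.inl j) : Fin n) : ℕ) = j := by
    intro j
    rw [he0]
    simp
  have h0' : ∀ j : Fin (n - R), ((e0 (Sum.inr j) : Fin n) : ℕ) = R + j := by
    intro j
    rw [he0]
    simp
  rw [h3, ← Matrix.det_submatrix_equiv_self e0]
  have h5 : M'.submatrix e0 e0 = Matrix.fromBlocks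
      (Matrix.diagonal (fun i : Fin R => M ⟨i, by omega⟩ ⟨i, by omega⟩)) 0 0
      (Matrix.of fun j k : Fin (n - R) => M ⟨R + j, by omega⟩ ⟨R + k, by omega⟩) := by
    ext j k
    rcases j with j | j
    · have e1 : e0 (Sum.inl j) = ⟨j, by omega⟩ := Fin.ext (h0 j)
      rcases k with k | k
      · have e2 : e0 (Sum.inl k) = ⟨k, by omega⟩ := Fin.ext (h0 k)
        rw [Matrix.submatrix_apply, Matrix.fromBlocks_apply₁₁, hM', Matrix.of_apply, e1, e2,
          if_pos (Or.inl j.2), Matrix.diagonal_apply]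
        by_cases hjk : j = k
        · subst hjk
          rw [if_pos rfl, if_pos rfl]
        · rw [if_neg hjk, if_neg]
          intro h
          apply hjk
          ext
          simpa using h
      · have e2 : e0 (Sum.inr k) = ⟨R + k, by omega⟩ := Fin.ext (h0' k)
        rw [Matrix.submatrix_apply, Matrix.fromBlocks_apply₁₂, hM', Matrix.of_apply, e1, e2,
          if_pos (Or.inl j.2), if_neg, Matrix.zero_apply]
        intro h
        have : (j : ℕ) = R + k := by simpa using h
        omega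
    · have e1 : e0 (Sum.inr j) = ⟨R + j, by omega⟩ := Fin.ext (h0' j)
      rcases k with k | k
      · have e2 : e0 (Sum.inl k) = ⟨k, by omega⟩ := Fin.ext (h0 k)
        rw [Matrix.submatrix_apply, Matrix.fromBlocks_apply₂₁, hM', Matrix.of_apply, e1, e2,
          if_pos (Or.inr k.2), if_neg, Matrix.zero_apply]
        intro h
        have : R + (j : ℕ) = k := by simpa using h
        omega
      · have e2 : e0 (Sum.inr k) = ⟨R + k, by omega⟩ := Fin.ext (h0' k)
        rw [Matrix.submatrix_apply, Matrix.fromBlocks_apply₂₂, hM', Matrix.of_apply, e1, e2,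
          if_neg, Matrix.of_apply]
        rintro (h | h)
        · simp only at h
          omega
        · simp only at h
          omega
  rw [h5, Matrix.det_fromBlocks_zero₂₁, Matrix.det_diagonal]

variable {m R N : ℕ} {T S C : Type} [Fintype T] [Fintype S] [Fintype C]
  (D : Design m R N T S C)

/-- the vector at a letter; a point has an indeterminate in the rows of which it is a mark, and `0`
in the other rows `< R` -/
noncomputable def dent (z : S ⊕ Fin N → ℕ → ℂ) :
    T ⊕ (S ⊕ Fin N) → ℕ → MvPolynomial (ℕ × (S ⊕ Fin N)) ℂ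
  | Sum.inl t, i => MvPolynomial.C (if i = D.cls t then 1 else 0)
  | Sum.inr q, i => if i < R then (if 0 < D.mark q i then X (i, q) else 0)
      else MvPolynomial.C (z q (i - R))

/-- The factor of the column `c` when the letter `p` carries the vector of `π p`. -/
noncomputable def dD (z : S ⊕ Fin N → ℕ → ℂ) (π : Equiv.Perm (T ⊕ (S ⊕ Fin N))) (c : C)
    (lo : Fin (D.len c - R) → Fin N) : MvPolynomial (ℕ × (S ⊕ Fin N)) ℂ :=
  Matrix.det (Matrix.of fun j k : Fin (D.len c) => dent D z (π (D.J c lo j)) k)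

/-- the lower letters of a column -/
noncomputable def lw (c : C) (lo : Fin (D.len c - R) → Fin N) (j : Fin (D.len c - R)) :
    S ⊕ Fin N :=
  if D.fx c then D.bot c j else Sum.inr (lo j)

/-- the minor of the lower part -/
noncomputable def dlow (z : S ⊕ Fin N → ℕ → ℂ) (c : C) (lo : Fin (D.len c - R) → Fin N) : ℂ :=
  Matrix.det (Matrix.of fun j k : Fin (D.len c - R) => z (lw D c lo j) k)

/-- The classes are permuted by `α` and the points by `τ`. -/
def TypA (π : Equiv.Perm (T ⊕ (S ⊕ Fin N))) (α : Equiv.Perm (Fin R))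
    (τ : Equiv.Perm (S ⊕ Fin N)) : Prop :=
  (∀ q, π (Sum.inr q) = Sum.inr (τ q)) ∧
  ∀ t, ∃ t', π (Sum.inl t) = Sum.inl t' ∧ D.cls t = α ⟨D.cls t', D.cls_lt t'⟩

/-- The types and the points are preserved. -/
def Typ1 (π : Equiv.Perm (T ⊕ (S ⊕ Fin N))) : Prop :=
  (∀ q, π (Sum.inr q) = Sum.inr q) ∧ ∀ t, ∃ t', π (Sum.inl t) = Sum.inl t' ∧ D.cls t' = D.cls t

/-- The monomial. -/
noncomputable def dmu : (ℕ × (S ⊕ Fin N)) →₀ ℕ :=
  ∑ c, ∑ i ∈ Finset.range (min (D.len c) R),
    Sum.elim (fun _ => (0 : (ℕ × (S ⊕ Fin N)) →₀ ℕ)) (fun q => Finsupp.single (i, q) 1) (D.srv c i)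

variable {D}

lemma J_lt {c : C} {lo : Fin (D.len c - R) → Fin N} {j : Fin (D.len c)} (h : (j : ℕ) < R) :
    D.J c lo j = D.srv c j := by
  unfold Design.J
  rw [dif_pos h]

lemma J_ge {c : C} {lo : Fin (D.len c - R) → Fin N} {j : Fin (D.len c)} (h : R ≤ (j : ℕ)) :
    D.J c lo j = Sum.inr (lw D c lo ⟨j - R, by omega⟩) := by
  unfold Design.J lw
  rw [dif_neg (by omega)]
  split_ifs <;> rfl

lemma known_index {c : C} {p : T ⊕ (S ⊕ Fin N)} (hp : D.known c p)
    (lo : Fin (D.len c - R) → Fin N) : ∃ j, D.J c lo j = p := by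
  rcases hp with ⟨i, hi, hi2, hs⟩ | ⟨hc, j, hs⟩
  · refine ⟨⟨i, hi⟩, ?_⟩
    rw [J_lt (j := ⟨i, hi⟩) hi2]
    exact hs
  · have h1 : R + (j : ℕ) < D.len c := by
      have := j.2
      omega
    refine ⟨⟨R + j, h1⟩, ?_⟩
    rw [J_ge (j := ⟨R + (j : ℕ), h1⟩) (Nat.le_add_right _ _), ← hs]
    unfold lw
    rw [if_pos hc]
    congr 2
    ext
    simp

lemma known_J {c : C} (hc : D.fx c) (lo : Fin (D.len c - R) → Fin N) (j : Fin (D.len c)) :
    D.known c (D.J c lo j) := by
  by_cases hj : (j : ℕ) < R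
  · rw [J_lt hj]
    exact Or.inl ⟨j, j.2, hj, rfl⟩
  · rw [J_ge (by omega)]
    refine Or.inr ⟨hc, ⟨j - R, by omega⟩, ?_⟩
    unfold lw
    rw [if_pos hc]

lemma dD_eq_rows (z : S ⊕ Fin N → ℕ → ℂ) (π : Equiv.Perm (T ⊕ (S ⊕ Fin N))) {c : C}
    {lo : Fin (D.len c - R) → Fin N} {j j' : Fin (D.len c)} (hj : j ≠ j') {t t' : T}
    (h : π (D.J c lo j) = Sum.inl t) (h' : π (D.J c lo j') = Sum.inl t')
    (hcls : D.cls t = D.cls t') : dD D z π c lo = 0 := by
  unfold dD
  apply Matrix.det_zero_of_row_eq hj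
  funext k
  rw [Matrix.of_apply, Matrix.of_apply, h, h']
  simp only [dent, hcls]

/-- **Forcing.** -/
theorem typA_of_ne (hF : D.Types) (z : S ⊕ Fin N → ℕ → ℂ)
    (π : Equiv.Perm (T ⊕ (S ⊕ Fin N))) (lo : (c : C) → Fin (D.len c - R) → Fin N)
    (hne : ∀ c, dD D z π c (lo c) ≠ 0) : ∃ α τ, TypA D π α τ := by
  obtain ⟨α, hα⟩ := hF (fun r => Finset.univ.filter (fun p => ∃ t, π p = Sum.inl t ∧
      D.cls t = r))
    (by
      intro r r' hrr
      rw [Finset.disjoint_left]
      intro p hp hp'
      rw [Finset.mem_filter] at hp hp'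
      obtain ⟨-, t, ht, hc⟩ := hp
      obtain ⟨-, t', ht', hc'⟩ := hp'
      rw [ht] at ht'
      apply hrr
      ext
      rw [← hc, ← hc', Sum.inl_injective ht'])
    (by
      rintro r p hp q hq hpq c ⟨hcp, hcq⟩
      rw [Finset.mem_filter] at hp hq
      obtain ⟨-, t, ht, hc⟩ := hp
      obtain ⟨-, t', ht', hc'⟩ := hq
      obtain ⟨j, hj⟩ := known_index hcp (lo c)
      obtain ⟨j', hj'⟩ := known_index hcq (lo c)
      apply hne c
      refine dD_eq_rows z π (j := j) (j' := j') ?_ (hj ▸ ht) (hj' ▸ ht') (hc.trans hc'.symm)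
      rintro rfl
      exact hpq (hj.symm.trans hj'))
    (by
      intro r
      apply Finset.card_bij (fun p _ => π p)
      · intro p hp
        rw [Finset.mem_filter] at hp
        unfold Design.pure
        rw [Finset.mem_filter]
        exact ⟨Finset.mem_univ _, hp.2⟩
      · intro p _ q _ h
        exact π.injective h
      · intro p hp
        unfold Design.pure at hp
        rw [Finset.mem_filter] at hp
        refine ⟨π.symm p, ?_, by simp⟩
        rw [Finset.mem_filter]
        simpa using hp.2)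
  have hX : ∀ (r : Fin R) (p : T ⊕ (S ⊕ Fin N)), (∃ t, π p = Sum.inl t ∧ D.cls t = r) ↔
      ∃ t, p = Sum.inl t ∧ D.cls t = α r := by
    intro r p
    have h1 := congrArg (fun s => p ∈ s) (hα r)
    simp only [Design.pure, Finset.mem_filter, Finset.mem_univ, true_and, eq_iff_iff] at h1
    exact h1
  have hQ : ∀ q : S ⊕ Fin N, ∃ q', π (Sum.inr q) = Sum.inr q' := by
    intro q
    rcases hq : π (Sum.inr q) with t | q'
    · exfalso
      obtain ⟨t', ht', -⟩ := (hX ⟨D.cls t, D.cls_lt t⟩ (Sum.inr q)).1 ⟨t, hq, rfl⟩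
      exact absurd ht' (by simp)
    · exact ⟨q', rfl⟩
  choose g hg using hQ
  have hginj : Function.Injective g := by
    intro q q' h
    have h3 : π (Sum.inr q) = π (Sum.inr q') := by rw [hg, hg, h]
    exact Sum.inr_injective (π.injective h3)
  refine ⟨α, Equiv.ofBijective g (Finite.injective_iff_bijective.1 hginj),
    fun q => by rw [hg]; rfl, fun t => ?_⟩
  obtain ⟨t', ht', hc'⟩ := (hX (α.symm ⟨D.cls t, D.cls_lt t⟩) (Sum.inl t)).2
    ⟨t, rfl, by rw [Equiv.apply_symm_apply]⟩
  refine ⟨t', ht', ?_⟩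
  have h1 : (⟨D.cls t', D.cls_lt t'⟩ : Fin R) = α.symm ⟨D.cls t, D.cls_lt t⟩ := Fin.ext hc'
  rw [h1, Equiv.apply_symm_apply]

lemma dent_degreeOf (z : S ⊕ Fin N → ℕ → ℂ) (p : T ⊕ (S ⊕ Fin N)) (k i : ℕ) (u : S ⊕ Fin N) :
    degreeOf (i, u) (dent D z p k) ≤ if k = i ∧ p = Sum.inr u then 1 else 0 := by
  rcases p with t | q
  · simp only [dent, degreeOf_C]
    exact Nat.zero_le _
  · simp only [dent]
    by_cases hk : k < R
    · rw [if_pos hk]
      by_cases hl : 0 < D.mark q k
      · rw [if_pos hl, degreeOf_X]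
        by_cases h : (i, u) = (k, q)
        · have h1 := Prod.mk.inj h
          rw [if_pos h, if_pos ⟨h1.1.symm, by rw [h1.2]⟩]
        · rw [if_neg h]
          exact Nat.zero_le _
      · rw [if_neg hl, degreeOf_zero]
        exact Nat.zero_le _
    · rw [if_neg hk, degreeOf_C]
      exact Nat.zero_le _

/-- **The degrees of a column.** -/
lemma dD_degreeOf {π : Equiv.Perm (T ⊕ (S ⊕ Fin N))} {α : Equiv.Perm (Fin R)}
    {τ : Equiv.Perm (S ⊕ Fin N)} (h : TypA D π α τ) (z : S ⊕ Fin N → ℕ → ℂ) (c : C)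
    (lo : Fin (D.len c - R) → Fin N) (i : Fin R) (u : S ⊕ Fin N) :
    degreeOf ((i : ℕ), u) (dD D z π c lo) ≤
      if D.miss c (α i) ∧ D.known c (Sum.inr (τ.symm u)) then 1 else 0 := by
  unfold dD
  rw [Matrix.det_apply']
  refine (degreeOf_sum_le _ _ _).trans (Finset.sup_le fun σ _ => ?_)
  refine (degreeOf_mul_le _ _ _).trans ?_
  have h0 : degreeOf ((i : ℕ), u)
      (((Equiv.Perm.sign σ : ℤ) : MvPolynomial (ℕ × (S ⊕ Fin N)) ℂ)) = 0 := by
    rw [← map_intCast (MvPolynomial.C (σ := ℕ × (S ⊕ Fin N)) (R := ℂ)), degreeOf_C]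
  rw [h0, zero_add]
  have hsum : degreeOf ((i : ℕ), u) (∏ k, (Matrix.of fun j k : Fin (D.len c) =>
      dent D z (π (D.J c lo j)) k) (σ k) k) ≤
      ∑ k : Fin (D.len c), if (k : ℕ) = i ∧ π (D.J c lo (σ k)) = Sum.inr u then 1 else 0 := by
    refine (degreeOf_prod_le _ _ _).trans (Finset.sum_le_sum fun k _ => ?_)
    rw [Matrix.of_apply]
    exact dent_degreeOf z _ _ _ _
  by_cases hm : D.miss c (α i)
  · have hfx : D.fx c := by
      obtain ⟨h1, h2, q, hq⟩ := hm
      rcases D.serve c _ h2 h1 with ⟨t, ht, -⟩ | ⟨h3, -⟩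
      · rw [hq] at ht
        exact absurd ht (by simp)
      · exact h3
    have hl := D.fx_len c hfx
    by_cases hu : D.known c (Sum.inr (τ.symm u))
    · rw [if_pos ⟨hm, hu⟩]
      refine hsum.trans ?_
      calc _ ≤ ∑ k : Fin (D.len c), if k = ⟨i, lt_of_lt_of_le i.2 hl⟩ then 1 else 0 := by
            apply Finset.sum_le_sum
            intro k _
            by_cases hk : k = ⟨i, lt_of_lt_of_le i.2 hl⟩
            · rw [if_pos hk]
              split_ifs <;> omega
            · rw [if_neg hk, if_neg]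
              rintro ⟨h1, -⟩
              exact hk (Fin.ext h1)
        _ = 1 := by
            rw [Finset.sum_ite_eq']
            simp
    · rw [if_neg (fun h => hu h.2)]
      refine hsum.trans ?_
      rw [Finset.sum_eq_zero]
      intro k _
      rw [if_neg]
      rintro ⟨-, h2⟩
      apply hu
      have h3 : D.J c lo (σ k) = Sum.inr (τ.symm u) := by
        apply π.injective
        rw [h2, h.1, Equiv.apply_symm_apply]
      rw [← h3]
      exact known_J hfx lo _
  · rw [if_neg (fun h => hm h.1)]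
    by_cases hai : (α i : ℕ) < D.len c
    · rcases D.serve c (α i) hai (α i).2 with ⟨t, ht, hct⟩ | ⟨-, q, hq, -⟩
      swap
      · exact absurd ⟨(α i).2, hai, q, hq⟩ hm
      obtain ⟨t', ht', hct'⟩ := h.2 t
      have hcls : D.cls t' = i := by
        rw [hct] at hct'
        have := α.injective (Fin.ext hct')
        rw [this]
      set j1 : Fin (D.len c) := ⟨α i, hai⟩ with hj1
      have hJ1 : π (D.J c lo j1) = Sum.inl t' := by
        rw [J_lt (j := j1) (α i).2, hj1]
        simp only
        rw [ht, ht']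
      have hrow : ∀ k : Fin (D.len c), (k : ℕ) ≠ i → dent D z (π (D.J c lo j1)) k = 0 := by
        intro k hk
        rw [hJ1]
        simp only [dent]
        rw [if_neg (by omega), map_zero]
      by_cases hσ : ((σ.symm j1 : Fin (D.len c)) : ℕ) = i
      · refine hsum.trans ?_
        rw [Finset.sum_eq_zero]
        intro k _
        rw [if_neg]
        rintro ⟨h1, h2⟩
        have h3 : k = σ.symm j1 := Fin.ext (h1.trans hσ.symm)
        rw [h3, Equiv.apply_symm_apply, hJ1] at h2
        exact absurd h2 (by simp)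
      · have h4 : ∏ k, (Matrix.of fun j k : Fin (D.len c) =>
            dent D z (π (D.J c lo j)) k) (σ k) k = 0 := by
          apply Finset.prod_eq_zero (Finset.mem_univ (σ.symm j1))
          rw [Matrix.of_apply, Equiv.apply_symm_apply]
          exact hrow _ hσ
        rw [h4, degreeOf_zero]
    · refine hsum.trans ?_
      rw [Finset.sum_eq_zero]
      intro k _
      rw [if_neg]
      rintro ⟨-, h2⟩
      have hlen : D.len c < R := lt_of_le_of_lt (not_lt.1 hai) (α i).2
      have hkR : ((σ k : Fin (D.len c)) : ℕ) < R := lt_trans (σ k).2 hlen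
      rw [J_lt hkR] at h2
      rcases D.serve c _ (σ k).2 hkR with ⟨t, ht, -⟩ | ⟨h3, -⟩
      · rw [ht] at h2
        obtain ⟨t', ht', -⟩ := h.2 t
        rw [ht'] at h2
        exact absurd h2 (by simp)
      · have := D.fx_len c h3
        omega

variable (D) in
lemma dmu_apply {i : ℕ} (hi : i < R) (u : S ⊕ Fin N) : dmu D (i, u) = D.mark u i := by
  unfold dmu Design.mark
  rw [Finsupp.finsetSum_apply, Finset.card_filter]
  apply Finset.sum_congr rfl
  intro c _
  rw [Finsupp.finsetSum_apply]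
  have h1 : ∀ i' ∈ Finset.range (min (D.len c) R),
      (Sum.elim (fun _ => (0 : (ℕ × (S ⊕ Fin N)) →₀ ℕ)) (fun q => Finsupp.single (i', q) 1)
        (D.srv c i')) (i, u) = if i' = i ∧ D.srv c i' = Sum.inr u then 1 else 0 := by
    intro i' _
    rcases hs : D.srv c i' with t | q
    · rw [Sum.elim_inl, Finsupp.zero_apply, if_neg (fun h => absurd h.2 (by simp))]
    · rw [Sum.elim_inr, Finsupp.single_apply]
      by_cases h : (i', q) = (i, u)
      · have h2 := Prod.mk.inj h
        rw [if_pos h, if_pos ⟨h2.1, by rw [h2.2]⟩]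
      · rw [if_neg h, if_neg]
        rintro ⟨h2, h3⟩
        apply h
        rw [h2, Sum.inr_injective h3]
  rw [Finset.sum_congr rfl h1]
  by_cases h : i < R ∧ i < D.len c ∧ D.srv c i = Sum.inr u
  · rw [if_pos h, Finset.sum_eq_single i]
    · rw [if_pos ⟨rfl, h.2.2⟩]
    · intro b _ hb
      rw [if_neg (fun h => hb h.1)]
    · intro hn
      exact absurd (Finset.mem_range.2 (lt_min h.2.1 h.1)) hn
  · rw [if_neg h, Finset.sum_eq_zero]
    intro i' hi'
    rw [Finset.mem_range, lt_min_iff] at hi'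
    rw [if_neg]
    rintro ⟨rfl, h3⟩
    exact h ⟨hi'.2, hi'.1, h3⟩

/-- **The coefficient forces the hypothesis of rigidity.** -/
lemma mark_le_cap {π : Equiv.Perm (T ⊕ (S ⊕ Fin N))} {α : Equiv.Perm (Fin R)}
    {τ : Equiv.Perm (S ⊕ Fin N)} (h : TypA D π α τ) (z : S ⊕ Fin N → ℕ → ℂ)
    (lo : (c : C) → Fin (D.len c - R) → Fin N)
    (hc : coeff (dmu D) (∏ c, dD D z π c (lo c)) ≠ 0) (p : S ⊕ Fin N) (r : Fin R) :
    D.mark (τ p) r ≤ D.cap p (α r) := by
  rw [← dmu_apply D r.2]
  refine (monomial_le_degreeOf _ (mem_support_iff.2 hc)).trans ?_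
  refine (degreeOf_prod_le _ _ _).trans ?_
  unfold Design.cap
  rw [Finset.card_filter]
  apply Finset.sum_le_sum
  intro c _
  refine (dD_degreeOf h z c (lo c) r (τ p)).trans ?_
  rw [Equiv.symm_apply_apply]

lemma Typ1_of {π : Equiv.Perm (T ⊕ (S ⊕ Fin N))} (h : TypA D π 1 1) : Typ1 D π := by
  refine ⟨fun q => h.1 q, fun t => ?_⟩
  obtain ⟨t', ht', hc'⟩ := h.2 t
  exact ⟨t', ht', hc'.symm⟩

/-- **The value of a column.** -/
lemma dD_typ1 (hU : D.Uniq) {π : Equiv.Perm (T ⊕ (S ⊕ Fin N))} (h : Typ1 D π)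
    (z : S ⊕ Fin N → ℕ → ℂ) (c : C) (lo : Fin (D.len c - R) → Fin N) :
    dD D z π c lo = MvPolynomial.C (dlow D z c lo) *
      monomial (∑ i ∈ Finset.range (min (D.len c) R),
        Sum.elim (fun _ => (0 : (ℕ × (S ⊕ Fin N)) →₀ ℕ)) (fun q => Finsupp.single (i, q) 1)
          (D.srv c i)) 1 := by
  -- rows served by a pure letter
  have hrow : ∀ j k : Fin (D.len c), (j : ℕ) < R → (∃ t, D.srv c j = Sum.inl t) →
      dent D z (π (D.J c lo j)) k = MvPolynomial.C (if k = j then 1 else 0) := by
    rintro j k hj ⟨t, ht⟩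
    have hcls : D.cls t = j := by
      rcases D.serve c j j.2 hj with ⟨t2, ht2, hc2⟩ | ⟨-, q, hq, -⟩
      · rw [ht] at ht2
        rw [Sum.inl_injective ht2, hc2]
      · rw [ht] at hq
        exact absurd hq (by simp)
    obtain ⟨t', ht', hc'⟩ := h.2 t
    rw [J_lt hj, ht, ht']
    simp only [dent]
    congr 1
    by_cases hkj : k = j
    · rw [if_pos hkj, if_pos]
      rw [hkj, hc', hcls]
    · rw [if_neg hkj, if_neg]
      intro h5
      apply hkj
      ext
      rw [h5, hc', hcls]
  by_cases hlen : D.len c < R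
  · -- a short column
    have hall : ∀ j : Fin (D.len c), ∃ t, D.srv c j = Sum.inl t := by
      intro j
      rcases D.serve c j j.2 (lt_trans j.2 hlen) with ⟨t, ht, -⟩ | ⟨h3, -⟩
      · exact ⟨t, ht⟩
      · have := D.fx_len c h3
        omega
    have h6 : D.len c - R = 0 := by omega
    have hlow : dlow D z c lo = 1 := by
      unfold dlow
      have : IsEmpty (Fin (D.len c - R)) := by rw [h6]; infer_instance
      exact Matrix.det_isEmpty
    have hsum : ∑ i ∈ Finset.range (min (D.len c) R),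
        Sum.elim (fun _ => (0 : (ℕ × (S ⊕ Fin N)) →₀ ℕ)) (fun q => Finsupp.single (i, q) 1)
          (D.srv c i) = 0 := by
      apply Finset.sum_eq_zero
      intro i hi
      rw [Finset.mem_range, lt_min_iff] at hi
      obtain ⟨t, ht⟩ := hall ⟨i, hi.1⟩
      simp only at ht
      rw [ht, Sum.elim_inl]
    have hM : (Matrix.of fun j k : Fin (D.len c) => dent D z (π (D.J c lo j)) k) = 1 := by
      ext1 j k
      rw [Matrix.of_apply, hrow j k (lt_trans j.2 hlen) (hall j), Matrix.one_apply]
      by_cases hjk : k = j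
      · rw [if_pos hjk, if_pos hjk.symm, map_one]
      · rw [if_neg hjk, if_neg (fun h => hjk h.symm), map_zero]
    unfold dD
    rw [hM, Matrix.det_one, hlow, hsum, map_one, one_mul]
    rfl
  · have hl : R ≤ D.len c := not_lt.1 hlen
    unfold dD
    rw [det_cross hl (Matrix.of fun j k : Fin (D.len c) => dent D z (π (D.J c lo j)) k)
      (fun i => ∃ q, D.srv c i = Sum.inr q)]
    · have h1 : ∀ i : Fin R, (Matrix.of fun j k : Fin (D.len c) => dent D z (π (D.J c lo j)) k)
          ⟨i, lt_of_lt_of_le i.2 hl⟩ ⟨i, lt_of_lt_of_le i.2 hl⟩ =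
          monomial (Sum.elim (fun _ => (0 : (ℕ × (S ⊕ Fin N)) →₀ ℕ))
            (fun q => Finsupp.single ((i : ℕ), q) 1) (D.srv c i)) 1 := by
        intro i
        rw [Matrix.of_apply]
        rcases hs : D.srv c i with t | q
        · rw [hrow _ _ i.2 ⟨t, hs⟩, if_pos rfl, Sum.elim_inl, map_one]
          rfl
        · rw [J_lt (j := ⟨i, lt_of_lt_of_le i.2 hl⟩) i.2]
          simp only
          rw [hs, h.1, Sum.elim_inr]
          simp only [dent]
          have hmark : 0 < D.mark q i := by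
            unfold Design.mark
            rw [Finset.card_pos]
            exact ⟨c, Finset.mem_filter.2 ⟨Finset.mem_univ c, i.2, lt_of_lt_of_le i.2 hl, hs⟩⟩
          rw [if_pos i.2, if_pos hmark]
          rfl
      rw [Finset.prod_congr rfl (fun i _ => h1 i), mul_comm, min_eq_right hl]
      congr 1
      · unfold dlow
        rw [RingHom.map_det]
        congr 1
        ext1 j k
        rw [RingHom.mapMatrix_apply, Matrix.map_apply, Matrix.of_apply, Matrix.of_apply,
          Matrix.of_apply, J_ge (j := ⟨R + (j : ℕ), by omega⟩) (Nat.le_add_right _ _), h.1]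
        simp only [dent]
        rw [if_neg (by omega)]
        congr 2
        · congr 1
          ext
          simp
        · omega
      · rw [monomial_sum_one]
        exact Fin.prod_univ_eq_prod_range (fun i => (monomial (Sum.elim
          (fun _ => (0 : (ℕ × (S ⊕ Fin N)) →₀ ℕ)) (fun q => Finsupp.single (i, q) 1)
            (D.srv c i)) (1 : ℂ) : MvPolynomial (ℕ × (S ⊕ Fin N)) ℂ)) R
    · intro j hj hS k hk
      rw [Matrix.of_apply]
      have hin : ∃ t, D.srv c j = Sum.inl t := by
        rcases hs : D.srv c j with t | q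
        · exact ⟨t, rfl⟩
        · exact absurd ⟨q, hs⟩ hS
      rw [hrow j k hj hin, if_neg hk, map_zero]
    · rintro k hk ⟨q, hq⟩ j hjk
      rw [Matrix.of_apply]
      have hfx : D.fx c := by
        rcases D.serve c k k.2 hk with ⟨t, ht, -⟩ | ⟨h3, -⟩
        · rw [hq] at ht
          exact absurd ht (by simp)
        · exact h3
      have hJ : D.J c lo j ≠ Sum.inr q := by
        intro hJ
        rcases D.serve c k k.2 hk with ⟨t, ht, -⟩ | ⟨-, q', hq', hb, hi⟩
        · rw [hq] at ht
          exact absurd ht (by simp)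
        · rw [hq] at hq'
          have hqq := Sum.inr_injective hq'
          subst hqq
          by_cases hj : (j : ℕ) < R
          · rw [J_lt hj] at hJ
            exact hjk (Fin.ext (hi j hj hJ))
          · rw [J_ge (by omega)] at hJ
            have h7 := Sum.inr_injective hJ
            unfold lw at h7
            rw [if_pos hfx] at h7
            exact hb _ h7
      rcases hp : D.J c lo j with t | q'
      · obtain ⟨t', ht', hc'⟩ := h.2 t
        rw [ht']
        simp only [dent]
        have hjR : (j : ℕ) < R := by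
          by_contra hj
          rw [J_ge (by omega)] at hp
          exact absurd hp (by simp)
        rw [J_lt hjR] at hp
        rcases D.serve c j j.2 hjR with ⟨t2, ht2, hc2⟩ | ⟨-, q2, hq2, -⟩
        · rw [hp] at ht2
          rw [if_neg, map_zero]
          rw [hc', Sum.inl_injective ht2, hc2]
          intro h8
          exact hjk (Fin.ext h8.symm)
        · rw [hp] at hq2
          exact absurd hq2 (by simp)
      · rw [h.1]
        simp only [dent]
        rw [if_pos hk, if_neg]
        intro hmark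
        apply hJ
        have h9 := hU c k ⟨hk, k.2, q, hq⟩ q' (hp ▸ known_J hfx lo j) hmark
        rw [hq] at h9
        rw [hp, h9]

/-- **The coefficient.** -/
lemma coeff_dmu (hF : D.Types) (hRg : D.Rigid) (hU : D.Uniq) (z : S ⊕ Fin N → ℕ → ℂ)
    (π : Equiv.Perm (T ⊕ (S ⊕ Fin N))) (lo : (c : C) → Fin (D.len c - R) → Fin N) :
    coeff (dmu D) (∏ c, dD D z π c (lo c)) =
      if Typ1 D π then ∏ c, dlow D z c (lo c) else 0 := by
  split_ifs with h
  · rw [Finset.prod_congr rfl (fun c _ => dD_typ1 hU h z c (lo c)), Finset.prod_mul_distrib,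
      ← map_prod, ← monomial_sum_one, coeff_C_mul, coeff_monomial]
    unfold dmu
    rw [if_pos rfl, mul_one]
  · by_contra hc
    have hne : ∀ c, dD D z π c (lo c) ≠ 0 := by
      intro c h0
      apply hc
      rw [Finset.prod_eq_zero (Finset.mem_univ c) h0, coeff_zero]
    obtain ⟨α, τ, hA⟩ := typA_of_ne hF z π lo hne
    obtain ⟨h1, h2⟩ := hRg α τ (fun p r => mark_le_cap hA z lo hc p r)
    subst h1
    subst h2
    exact h (Typ1_of hA)

lemma typ1_one : Typ1 D (1 : Equiv.Perm (T ⊕ (S ⊕ Fin N))) :=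
  ⟨fun _ => rfl, fun t => ⟨t, rfl, rfl⟩⟩

/-- **(C1')** the algebra of T6. -/
theorem alg6 : AlgStmt := by
  intro m R N b T S C _ _ _ D hF hRg hU e ι lo hli
  rw [linearIndependent_iff'] at hli ⊢
  intro s g hg
  apply hli s g
  -- the identity for the lower minors
  have key : ∀ z : S ⊕ Fin N → ℕ → ℂ, ∑ β ∈ s, g β * ∏ c, dlow D z c (lo β c) = 0 := by
    intro z
    set P : MvPolynomial (ℕ × (S ⊕ Fin N)) ℂ := ∑ β ∈ s, MvPolynomial.C (g β) *
      ∑ π : Equiv.Perm (T ⊕ (S ⊕ Fin N)), ∏ c, dD D z π c (lo β c) with hP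
    have hP0 : P = 0 := by
      apply MvPolynomial.funext
      intro x
      rw [map_zero, hP, map_sum]
      have h1 := congrFun hg (fun j i => eval x (dent D z (e j) i))
      rw [Finset.sum_apply, Pi.zero_apply] at h1
      rw [← h1]
      apply Finset.sum_congr rfl
      intro β _
      rw [map_mul, eval_C, Pi.smul_apply, smul_eq_mul, map_sum]
      congr 1
      rw [← Equiv.sum_comp (Equiv.permCongr e)]
      apply Finset.sum_congr rfl
      intro σ _
      rw [map_prod, Finset.prod_apply]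
      apply Finset.prod_congr rfl
      intro c _
      unfold dD dt
      rw [RingHom.map_det]
      congr 1
    have h2 : coeff (dmu D) P = 0 := by rw [hP0, coeff_zero]
    rw [hP, coeff_sum] at h2
    have h3 : ∀ β ∈ s, coeff (dmu D) (MvPolynomial.C (g β) *
        ∑ π : Equiv.Perm (T ⊕ (S ⊕ Fin N)), ∏ c, dD D z π c (lo β c)) =
        ((Finset.univ.filter (fun π : Equiv.Perm (T ⊕ (S ⊕ Fin N)) => Typ1 D π)).card : ℂ) *
          (g β * ∏ c, dlow D z c (lo β c)) := by
      intro β _
      rw [coeff_C_mul, coeff_sum]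
      rw [Finset.sum_congr rfl (fun π _ => coeff_dmu hF hRg hU z π (lo β)), ← Finset.sum_filter,
        Finset.sum_const, nsmul_eq_mul]
      ring
    rw [Finset.sum_congr rfl h3, ← Finset.mul_sum, mul_eq_zero] at h2
    rcases h2 with h2 | h2
    · exfalso
      rw [Nat.cast_eq_zero, Finset.card_eq_zero, Finset.filter_eq_empty_iff] at h2
      exact h2 (Finset.mem_univ 1) typ1_one
    · exact h2
  -- polynomials in the lower coordinates
  set Θ : MvPolynomial ((S ⊕ Fin N) × ℕ) ℂ := ∏ c ∈ Finset.univ.filter (fun c => D.fx c),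
    Matrix.det (Matrix.of fun j k : Fin (D.len c - R) =>
      (X (D.bot c j, (k : ℕ)) : MvPolynomial ((S ⊕ Fin N) × ℕ) ℂ)) with hΘ
  set G : MvPolynomial ((S ⊕ Fin N) × ℕ) ℂ := ∑ β ∈ s, MvPolynomial.C (g β) *
    ∏ c ∈ Finset.univ.filter (fun c => ¬ D.fx c),
      Matrix.det (Matrix.of fun j k : Fin (D.len c - R) =>
        (X (Sum.inr (lo β c j), (k : ℕ)) : MvPolynomial ((S ⊕ Fin N) × ℕ) ℂ)) with hG
  have hΘ0 : Θ ≠ 0 := by
    rw [hΘ, Finset.prod_ne_zero_iff]
    intro c hc h0
    rw [Finset.mem_filter] at hc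
    have h1 := congrArg (eval (fun p : (S ⊕ Fin N) × ℕ =>
      if ∃ j, D.bot c j = p.1 ∧ (j : ℕ) = p.2 then (1 : ℂ) else 0)) h0
    rw [map_zero, RingHom.map_det] at h1
    have h2 : (eval (fun p : (S ⊕ Fin N) × ℕ =>
        if ∃ j, D.bot c j = p.1 ∧ (j : ℕ) = p.2 then (1 : ℂ) else 0)).mapMatrix
        (Matrix.of fun j k : Fin (D.len c - R) =>
          (X (D.bot c j, (k : ℕ)) : MvPolynomial ((S ⊕ Fin N) × ℕ) ℂ)) = 1 := by
      ext j k
      rw [RingHom.mapMatrix_apply, Matrix.map_apply, Matrix.of_apply, eval_X, Matrix.one_apply]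
      by_cases hjk : j = k
      · rw [if_pos hjk, if_pos ⟨j, rfl, by rw [hjk]⟩]
      · rw [if_neg hjk, if_neg]
        rintro ⟨j', h3, h4⟩
        apply hjk
        have h5 := D.bot_inj c hc.2 h3
        rw [← h5]
        exact Fin.ext h4
    rw [h2, Matrix.det_one] at h1
    exact one_ne_zero h1
  have hΘG : Θ * G = 0 := by
    apply MvPolynomial.funext
    intro x
    rw [map_zero, map_mul, hΘ, hG, map_prod, map_sum, Finset.mul_sum]
    rw [← key (fun q i => x (q, i))]
    apply Finset.sum_congr rfl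
    intro β _
    rw [map_mul, eval_C, map_prod,
      ← Finset.prod_filter_mul_prod_filter_not Finset.univ (fun c => D.fx c)
        (fun c => dlow D (fun q i => x (q, i)) c (lo β c))]
    have h1 : ∀ c ∈ Finset.univ.filter (fun c => D.fx c),
        eval x (Matrix.det (Matrix.of fun j k : Fin (D.len c - R) =>
          (X (D.bot c j, (k : ℕ)) : MvPolynomial ((S ⊕ Fin N) × ℕ) ℂ))) =
        dlow D (fun q i => x (q, i)) c (lo β c) := by
      intro c hc
      rw [Finset.mem_filter] at hc
      rw [RingHom.map_det]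
      unfold dlow lw
      congr 1
      ext j k
      rw [RingHom.mapMatrix_apply, Matrix.map_apply, Matrix.of_apply, eval_X, Matrix.of_apply,
        if_pos hc.2]
    have h2 : ∀ c ∈ Finset.univ.filter (fun c => ¬ D.fx c),
        eval x (Matrix.det (Matrix.of fun j k : Fin (D.len c - R) =>
          (X (Sum.inr (lo β c j), (k : ℕ)) : MvPolynomial ((S ⊕ Fin N) × ℕ) ℂ))) =
        dlow D (fun q i => x (q, i)) c (lo β c) := by
      intro c hc
      rw [Finset.mem_filter] at hc
      rw [RingHom.map_det]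
      unfold dlow lw
      congr 1
      ext j k
      rw [RingHom.mapMatrix_apply, Matrix.map_apply, Matrix.of_apply, eval_X, Matrix.of_apply,
        if_neg hc.2]
    rw [Finset.prod_congr rfl h1, Finset.prod_congr rfl h2]
    ring
  have hG0 : G = 0 := (mul_eq_zero.1 hΘG).resolve_left hΘ0
  funext z'
  have h1 := congrArg (eval (fun p : (S ⊕ Fin N) × ℕ =>
    Sum.elim (fun _ => (0 : ℂ)) (fun q => if h : p.2 < m - R then z' q ⟨p.2, h⟩ else 0) p.1)) hG0
  rw [map_zero, hG, map_sum] at h1
  rw [Finset.sum_apply, Pi.zero_apply, ← h1]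
  apply Finset.sum_congr rfl
  intro β _
  rw [map_mul, eval_C, map_prod, Pi.smul_apply, smul_eq_mul, Finset.prod_apply]
  congr 1
  apply Finset.prod_congr rfl
  intro c _
  rw [RingHom.map_det]
  unfold dt
  congr 1
  ext j k
  rw [Matrix.of_apply, RingHom.mapMatrix_apply, Matrix.map_apply, Matrix.of_apply, eval_X]
  have h2 : (k : ℕ) < m - R := by
    have := D.len_le c
    omega
  simp only [Sum.elim_inr]
  rw [dif_pos h2]
  rfl

end Vale.Agent.P181.H502
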