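import Vale.Agent.P181.H106.Growth

/-! P181: almost all partitions of `a b` with at most `a` parts have large gaps: counting. -/

set_option autoImplicit false

namespace Vale.Agent.P181.H502

open Finset
open Vale.Agent.P181.H676 Vale.Agent.P181.H106

/-- the number of columns of length `d + 1` -/
def gap {n : ℕ} (l : Fin (n + 1) → ℕ) (d : ℕ) : ℕ := nx l d - nx l (d + 1)

/-- add `c e` columns of length `e + 1` for every `e ≤ n` -/
def addf {n : ℕ} (c : ℕ → ℕ) (l : Fin (n + 1) → ℕ) : Fin (n + 1) → ℕ :=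
  fun i => l i + ∑ e ∈ Finset.Ico (i : ℕ) (n + 1), c e

theorem addf_inj {n : ℕ} (c : ℕ → ℕ) : Function.Injective (addf (n := n) c) := by
  intro l l' h
  funext i
  have := congrFun h i
  simp only [addf] at this
  omega

theorem addf_anti {n : ℕ} (c : ℕ → ℕ) {l : Fin (n + 1) → ℕ} (hl : Antitone l) :
    Antitone (addf c l) := by
  intro i i' hii
  have h1 := hl hii
  have h2 : ∑ e ∈ Finset.Ico (i' : ℕ) (n + 1), c e ≤ ∑ e ∈ Finset.Ico (i : ℕ) (n + 1), c e :=
    Finset.sum_le_sum_of_subset (Finset.Ico_subset_Ico_left (by rwa [Fin.le_def] at hii))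
  simp only [addf]
  omega

theorem addf_sum {n : ℕ} (c : ℕ → ℕ) (l : Fin (n + 1) → ℕ) :
    ∑ i, addf c l i = ∑ i, l i + ∑ e ∈ range (n + 1), (e + 1) * c e := by
  simp only [addf, Finset.sum_add_distrib]
  congr 1
  rw [← Finset.sum_range (fun i => ∑ e ∈ Finset.Ico i (n + 1), c e)]
  rw [Finset.sum_comm' (t' := range (n + 1)) (s' := fun e => range (e + 1))]
  · refine Finset.sum_congr rfl fun e _ => ?_
    rw [Finset.sum_const, Finset.card_range, smul_eq_mul]
  · intro x y
    simp only [Finset.mem_range, Finset.mem_Ico]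
    omega

theorem nx_addf {n : ℕ} (c : ℕ → ℕ) (l : Fin (n + 1) → ℕ) (e : ℕ) :
    nx (addf c l) e = nx l e + ∑ k ∈ Finset.Ico e (n + 1), c k := by
  unfold nx
  by_cases h : e < n + 1
  · rw [dif_pos h, dif_pos h]
    rfl
  · rw [dif_neg h, dif_neg h, Finset.Ico_eq_empty (by omega)]
    simp

theorem gap_addf {n : ℕ} (c : ℕ → ℕ) {l : Fin (n + 1) → ℕ} (hl : Antitone l) {e : ℕ}
    (he : e ≤ n) : gap (addf c l) e = gap l e + c e := by
  unfold gap
  rw [nx_addf, nx_addf, Finset.sum_eq_sum_Ico_succ_bot (by omega : e < n + 1)]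
  have := nx_anti hl e
  omega

theorem sum_gap_Ico {n : ℕ} {l : Fin (n + 1) → ℕ} (hl : Antitone l) (p q : ℕ) (h : p ≤ q) :
    ∑ e ∈ Finset.Ico p q, gap l e + nx l q = nx l p := by
  induction q, h using Nat.le_induction with
  | base => simp
  | succ q hq ih =>
    rw [Finset.sum_Ico_succ_top hq]
    have := nx_anti hl q
    unfold gap at ih ⊢
    omega

open Classical in
theorem card_pi (s : Finset ℕ) (M : ℕ) : (s.piAntidiag M).card = (s.card + M - 1).choose M := by
  rw [← Finset.card_finsuppAntidiag_nat_eq_choose]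
  symm
  refine Finset.card_bij (fun f _ => (f : ℕ → ℕ)) ?_ ?_ ?_
  · intro f hf
    rw [Finset.mem_finsuppAntidiag] at hf
    rw [Finset.mem_piAntidiag]
    exact ⟨hf.1, fun i hi => hf.2 (Finsupp.mem_support_iff.2 hi)⟩
  · intro f _ g _ h
    exact DFunLike.coe_injective h
  · intro g hg
    rw [Finset.mem_piAntidiag] at hg
    refine ⟨Finsupp.onFinset s g hg.2, ?_, rfl⟩
    rw [Finset.mem_finsuppAntidiag]
    refine ⟨hg.1, fun i hi => hg.2 i ?_⟩
    rw [Finsupp.mem_support_iff] at hi
    exact hi

open Classical in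
/-- **The basic count.** `W` is a set of column lengths (minus one) not containing `0`. -/
theorem cnt {n N T H Y Z : ℕ} {W : Finset ℕ} (hW : ∀ e ∈ W, 1 ≤ e ∧ e ≤ n ∧ e + 1 ≤ H)
    (hT : H * Z ≤ T) :
    ((Lam (n + 1) N).filter fun l => ∑ e ∈ W, gap l e ≤ Y).card * (Z + W.card).choose W.card ≤
      (Y + W.card).choose W.card * (Lam (n + 1) (N + T)).card := by
  have h0 : (0 : ℕ) ∉ W := fun h => by have := (hW 0 h).1; omega
  have hcard : ∀ M : ℕ, ((insert 0 W).piAntidiag M).card = (M + W.card).choose W.card := by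
    intro M
    rw [card_pi, Finset.card_insert_of_notMem h0]
    rw [show W.card + 1 + M - 1 = M + W.card by omega]
    exact Nat.choose_symm_add
  rw [← hcard, ← hcard, ← Finset.card_product, ← Finset.card_product]
  have hsum : ∀ x : ℕ → ℕ, x ∈ (insert 0 W).piAntidiag Z → x 0 + ∑ e ∈ W, x e = Z ∧
      ∀ e, x e ≠ 0 → e = 0 ∨ e ∈ W := by
    intro x hx
    rw [Finset.mem_piAntidiag, Finset.sum_insert h0] at hx
    refine ⟨hx.1, fun e he => ?_⟩
    have := hx.2 e he
    rwa [Finset.mem_insert] at this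
  have hbd : ∀ x : ℕ → ℕ, x ∈ (insert 0 W).piAntidiag Z → ∑ e ∈ W, (e + 1) * x e ≤ T := by
    intro x hx
    have h1 := (hsum x hx).1
    calc ∑ e ∈ W, (e + 1) * x e ≤ ∑ e ∈ W, H * x e :=
          Finset.sum_le_sum fun e he => Nat.mul_le_mul_right _ (hW e he).2.2
      _ = H * ∑ e ∈ W, x e := by rw [Finset.mul_sum]
      _ ≤ H * Z := Nat.mul_le_mul_left _ (by omega)
      _ ≤ T := hT
  -- the column counts to add
  let cc : (ℕ → ℕ) → ℕ → ℕ := fun x e =>
    if e ∈ W then x e else if e = 0 then T - ∑ e ∈ W, (e + 1) * x e else 0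
  have hcc : ∀ x : ℕ → ℕ, x ∈ (insert 0 W).piAntidiag Z →
      ∑ e ∈ range (n + 1), (e + 1) * cc x e = T := by
    intro x hx
    have h1 : ∑ e ∈ range (n + 1), (e + 1) * cc x e =
        ∑ e ∈ insert 0 W, (e + 1) * cc x e := by
      symm
      refine Finset.sum_subset ?_ ?_
      · intro e he
        rw [Finset.mem_insert] at he
        rw [Finset.mem_range]
        rcases he with rfl | he
        · omega
        · have := hW e he; omega
      · intro e _ he
        rw [Finset.mem_insert, not_or] at he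
        simp only [cc, if_neg he.2, if_neg he.1, Nat.mul_zero]
    rw [h1, Finset.sum_insert h0]
    have h2 : ∑ e ∈ W, (e + 1) * cc x e = ∑ e ∈ W, (e + 1) * x e := by
      refine Finset.sum_congr rfl fun e he => ?_
      simp only [cc, if_pos he]
    have h3 : cc x 0 = T - ∑ e ∈ W, (e + 1) * x e := by
      simp only [cc, if_neg h0, if_true]
    rw [h2, h3]
    have := hbd x hx
    omega
  let gv : (Fin (n + 1) → ℕ) → ℕ → ℕ := fun l e =>
    if e ∈ W then gap l e else if e = 0 then Y - ∑ e ∈ W, gap l e else 0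
  refine Finset.card_le_card_of_injOn
    (fun p : (Fin (n + 1) → ℕ) × (ℕ → ℕ) => (gv p.1, addf (cc p.2) p.1)) ?_ ?_
  · rintro ⟨l, x⟩ hp
    have hp := Finset.mem_product.1 (Finset.mem_coe.1 hp)
    have hl := Finset.mem_filter.1 hp.1
    have hl1 := mem_Lam.1 hl.1
    refine Finset.mem_coe.2 (Finset.mem_product.2 ⟨?_, mem_Lam.2 ⟨addf_anti _ hl1.1, ?_⟩⟩)
    · simp only
      rw [Finset.mem_piAntidiag, Finset.sum_insert h0]
      constructor
      · have h2 : ∑ e ∈ W, gv l e = ∑ e ∈ W, gap l e := by
          refine Finset.sum_congr rfl fun e he => ?_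
          simp only [gv, if_pos he]
        have h3 : gv l 0 = Y - ∑ e ∈ W, gap l e := by
          simp only [gv, if_neg h0, if_true]
        have h4 : ∑ e ∈ W, gap l e ≤ Y := hl.2
        have h5 : gv l 0 + ∑ e ∈ W, gv l e = Y := by
          rw [h2, h3]
          omega
        exact h5
      · intro e he
        rw [Finset.mem_insert]
        by_contra hne
        rw [not_or] at hne
        refine he ?_
        simp only [gv, if_neg hne.2, if_neg hne.1]
    · simp only
      rw [addf_sum, hl1.2, hcc x hp.2]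
  · rintro ⟨l, x⟩ hp ⟨l', x'⟩ hp' heq
    have hp := Finset.mem_product.1 (Finset.mem_coe.1 hp)
    have hp' := Finset.mem_product.1 (Finset.mem_coe.1 hp')
    have hl := Finset.mem_filter.1 hp.1
    have hl' := Finset.mem_filter.1 hp'.1
    have hl1 := mem_Lam.1 hl.1
    have hl1' := mem_Lam.1 hl'.1
    have hl1 : Antitone l ∧ ∑ i, l i = N := hl1
    have hl1' : Antitone l' ∧ ∑ i, l' i = N := hl1'
    have hx2 : x ∈ (insert 0 W).piAntidiag Z := hp.2
    have hx2' : x' ∈ (insert 0 W).piAntidiag Z := hp'.2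
    have e1 : gv l = gv l' := congrArg Prod.fst heq
    have e2 : addf (cc x) l = addf (cc x') l' := congrArg Prod.snd heq
    have hxW : ∀ e ∈ W, x e = x' e := by
      intro e he
      have h1 := congrFun e1 e
      simp only [gv, if_pos he] at h1
      have h2 : gap (addf (cc x) l) e = gap (addf (cc x') l') e := by rw [e2]
      rw [gap_addf _ hl1.1 (hW e he).2.1, gap_addf _ hl1'.1 (hW e he).2.1] at h2
      simp only [cc, if_pos he] at h2
      omega
    have hx0 : x 0 = x' 0 := by
      have h1 := (hsum x hx2).1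
      have h2 := (hsum x' hx2').1
      have h3 : ∑ e ∈ W, x e = ∑ e ∈ W, x' e := Finset.sum_congr rfl hxW
      omega
    have hx : x = x' := by
      funext e
      by_cases h : e ∈ W
      · exact hxW e h
      · by_cases h' : e = 0
        · rw [h']; exact hx0
        · have h1 : x e = 0 := by
            by_contra hne
            rcases (hsum x hx2).2 e hne with h2 | h2
            · exact h' h2
            · exact h h2
          have h2 : x' e = 0 := by
            by_contra hne
            rcases (hsum x' hx2').2 e hne with h2 | h2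
            · exact h' h2
            · exact h h2
          rw [h1, h2]
    subst hx
    have := addf_inj _ e2
    rw [this]

end Vale.Agent.P181.H502
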