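import Vale.Agent.P181.H502.Frame6

set_option autoImplicit false

open MvPolynomial
open scoped Classical

namespace Vale.Agent.P181.T6

open Vale.Agent.P181.FR Vale.Agent.P181.H188W Vale.Agent.P181.T4

/-- An injective path in `{0, .., R - 1}` with steps `± 1` is the identity or the reversal. -/
lemma path_id_or_rev (R : ℕ) (β : ℕ → ℕ) (hlt : ∀ i < R, β i < R)
    (hinj : ∀ i < R, ∀ j < R, β i = β j → i = j)
    (hstep : ∀ i, i + 1 < R → β (i + 1) = β i + 1 ∨ β i = β (i + 1) + 1) :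
    (∀ i < R, β i = i) ∨ (∀ i < R, β i = R - 1 - i) := by
  by_cases hR : R ≤ 1
  · left
    intro i hi
    have := hlt i hi
    omega
  · rcases hstep 0 (by omega) with h0 | h0
    · left
      have key : ∀ i, i < R → (i + 1 < R → β (i + 1) = β i + 1) ∧ β i = β 0 + i := by
        intro i
        induction i with
        | zero => intro _; exact ⟨fun _ => h0, rfl⟩
        | succ i ih =>
          intro hi
          obtain ⟨h1, h2⟩ := ih (by omega)
          have h3 := h1 hi
          refine ⟨fun hi2 => ?_, by omega⟩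
          rcases hstep (i + 1) hi2 with h4 | h4
          · exact h4
          · exfalso
            have h5 : β (i + 1 + 1) = β i := by omega
            have := hinj _ hi2 _ (by omega) h5
            omega
      have h1 := (key (R - 1) (by omega)).2
      have h2 := hlt (R - 1) (by omega)
      intro i hi
      have := (key i hi).2
      omega
    · right
      have key : ∀ i, i < R → (i + 1 < R → β i = β (i + 1) + 1) ∧ β i + i = β 0 := by
        intro i
        induction i with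
        | zero => intro _; exact ⟨fun _ => h0, rfl⟩
        | succ i ih =>
          intro hi
          obtain ⟨h1, h2⟩ := ih (by omega)
          have h3 := h1 hi
          refine ⟨fun hi2 => ?_, by omega⟩
          rcases hstep (i + 1) hi2 with h4 | h4
          · exfalso
            have h5 : β (i + 1 + 1) = β i := by omega
            have := hinj _ hi2 _ (by omega) h5
            omega
          · exact h4
      have h1 := (key (R - 1) (by omega)).2
      have h2 := hlt 0 (by omega)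
      intro i hi
      have := (key i hi).2
      omega

namespace Frame6

variable {m R N : ℕ} {T C : Type} [Fintype T] [Fintype C] (Fr : Frame6 m R N T C)

/-- the vector at a position; a free point has an indeterminate in the rows which are its labels,
and `0` in the other rows `< R` -/
noncomputable def ent (z : Fin N → ℕ → ℂ) : T ⊕ Fin N → ℕ → MvPolynomial (ℕ × Fin N) ℂ
  | Sum.inl t, i => MvPolynomial.C (vec Fr.cls Fr.mix t i)
  | Sum.inr q, i => if i < R then (if Fr.label i q then X (i, q) else 0)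
      else MvPolynomial.C (z q (i - R))

/-- The positions of a column: the servers and then the points of the lower part. -/
noncomputable def J (c : C) (lo : Fin (Fr.len c - R) → Fin N) (j : Fin (Fr.len c)) : T ⊕ Fin N :=
  if h : (j : ℕ) < R then Fr.srv c j else Sum.inr (lo ⟨j - R, by omega⟩)

/-- The factor of the column `c` when the position `p` carries the vector of `π p`. -/
noncomputable def D (z : Fin N → ℕ → ℂ) (π : Equiv.Perm (T ⊕ Fin N)) (c : C)
    (lo : Fin (Fr.len c - R) → Fin N) : MvPolynomial (ℕ × Fin N) ℂ :=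
  Matrix.det (Matrix.of fun j k : Fin (Fr.len c) => Fr.ent z (π (Fr.J c lo j)) k)

variable {Fr}

lemma J_of_lt {c : C} {lo : Fin (Fr.len c - R) → Fin N} {j : Fin (Fr.len c)} (h : (j : ℕ) < R) :
    Fr.J c lo j = Fr.srv c j := by
  unfold J
  rw [dif_pos h]

lemma J_of_ge {c : C} {lo : Fin (Fr.len c - R) → Fin N} {j : Fin (Fr.len c)} (h : R ≤ (j : ℕ)) :
    Fr.J c lo j = Sum.inr (lo ⟨j - R, by omega⟩) := by
  unfold J
  rw [dif_neg (by omega)]

lemma D_eq_rows (z : Fin N → ℕ → ℂ) (π : Equiv.Perm (T ⊕ Fin N)) {c : C}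
    {lo : Fin (Fr.len c - R) → Fin N} {j j' : Fin (Fr.len c)} (hj : j ≠ j') {t t' : T}
    (h : π (Fr.J c lo j) = Sum.inl t) (h' : π (Fr.J c lo j') = Sum.inl t')
    (hcls : Fr.cls t = Fr.cls t') (hmix : Fr.mix t ↔ Fr.mix t') : Fr.D z π c lo = 0 := by
  unfold D
  apply Matrix.det_zero_of_row_eq hj
  funext k
  rw [Matrix.of_apply, Matrix.of_apply, h, h']
  simp only [ent, vec, hcls, hmix]

/-- A mixed vector together with its two pure vectors in one column gives `0`. -/
lemma D_dep (z : Fin N → ℕ → ℂ) (π : Equiv.Perm (T ⊕ Fin N)) {c : C}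
    {lo : Fin (Fr.len c - R) → Fin N} {j0 j1 j2 : Fin (Fr.len c)} (h01 : j0 ≠ j1) (h02 : j0 ≠ j2)
    {t0 t1 t2 : T}
    (h0 : π (Fr.J c lo j0) = Sum.inl t0) (h1 : π (Fr.J c lo j1) = Sum.inl t1)
    (h2 : π (Fr.J c lo j2) = Sum.inl t2) (hm0 : Fr.mix t0) (hm1 : ¬ Fr.mix t1)
    (hm2 : ¬ Fr.mix t2) (hc1 : Fr.cls t1 = Fr.cls t0) (hc2 : Fr.cls t2 = Fr.cls t0 + 1) :
    Fr.D z π c lo = 0 := by
  unfold D
  apply Matrix.exists_vecMul_eq_zero_iff.1
  refine ⟨fun j => (if j = j0 then 1 else 0) - (if j = j1 then 1 else 0) -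
    (if j = j2 then 1 else 0), ?_, ?_⟩
  · intro h
    have h3 := congrFun h j0
    simp only [if_true, h01, h02, if_false, sub_zero, Pi.zero_apply] at h3
    exact one_ne_zero h3
  · funext k
    rw [Matrix.vecMul, dotProduct]
    simp only [sub_mul, ite_mul, one_mul, zero_mul, Finset.sum_sub_distrib, Finset.sum_ite_eq',
      Finset.mem_univ, if_true, Matrix.of_apply, Pi.zero_apply]
    rw [h0, h1, h2]
    simp only [ent, vec, hm0, hm1, hm2, hc1, hc2, true_and, false_and, if_false, add_zero,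
      map_add]
    ring

/-- `lo` enumerates the prescribed lower letters of the fixed columns. -/
def Enum (Fr : Frame6 m R N T C) (lo : (c : C) → Fin (Fr.len c - R) → Fin N) : Prop :=
  ∀ c, Fr.fx c → Function.Injective (lo c) ∧ ∀ j, lo c j ∈ Fr.bot c

lemma Enum.surj {lo : (c : C) → Fin (Fr.len c - R) → Fin N} (h : Fr.Enum lo) {c : C}
    (hc : Fr.fx c) {q : Fin N} (hq : q ∈ Fr.bot c) : ∃ j, lo c j = q := by
  have h1 : Finset.univ.image (lo c) = Fr.bot c := by
    apply Finset.eq_of_subset_of_card_le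
    · intro x hx
      rw [Finset.mem_image] at hx
      obtain ⟨j, -, rfl⟩ := hx
      exact (h c hc).2 j
    · rw [Finset.card_image_of_injective _ (h c hc).1, Finset.card_univ, Fintype.card_fin,
        Fr.bot_card c hc]
  rw [← h1, Finset.mem_image] at hq
  obtain ⟨j, -, hj⟩ := hq
  exact ⟨j, hj⟩

lemma Enum.index {lo : (c : C) → Fin (Fr.len c - R) → Fin N} (h : Fr.Enum lo) {c : C}
    {p : T ⊕ Fin N} (hp : Fr.inc c p) : ∃ j, Fr.J c (lo c) j = p := by
  rcases hp with ⟨i, hi, hi2, hs⟩ | ⟨hc, q, hq, hs⟩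
  · refine ⟨⟨i, hi2⟩, ?_⟩
    rw [J_of_lt (j := ⟨i, hi2⟩) hi]
    exact hs
  · obtain ⟨j, hj⟩ := h.surj hc hq
    have h1 : R + (j : ℕ) < Fr.len c := by
      have := j.2
      omega
    refine ⟨⟨R + j, h1⟩, ?_⟩
    rw [J_of_ge (j := ⟨R + (j : ℕ), h1⟩) (Nat.le_add_right _ _), ← hs, ← hj]
    congr 2
    ext
    simp

variable (Fr)

/-- `π` preserves the types of the positions and permutes the free points by `τ`. -/
def Typed (π : Equiv.Perm (T ⊕ Fin N)) (τ : Equiv.Perm (Fin N)) : Prop :=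
  (∀ q, π (Sum.inr q) = Sum.inr (τ q)) ∧
  ∀ t, ∃ t', π (Sum.inl t) = Sum.inl t' ∧ Fr.cls t' = Fr.cls t ∧ (Fr.mix t' ↔ Fr.mix t)

variable {Fr}

/-- **Forcing.** -/
theorem typed_of_ne (hF : Fr.Forced) (hP : Fr.Pinned) (z : Fin N → ℕ → ℂ)
    (π : Equiv.Perm (T ⊕ Fin N)) (lo : (c : C) → Fin (Fr.len c - R) → Fin N) (hlo : Fr.Enum lo)
    (hne : ∀ c, Fr.D z π c (lo c) ≠ 0) : ∃ τ, Fr.Typed π τ := by
  -- the pure classes
  obtain ⟨α, hα⟩ := hF (fun r => Finset.univ.filter (fun p => ∃ t, π p = Sum.inl t ∧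
      Fr.cls t = r ∧ ¬ Fr.mix t))
    (by
      intro r r' hrr
      rw [Finset.disjoint_left]
      intro p hp hp'
      rw [Finset.mem_filter] at hp hp'
      obtain ⟨-, t, ht, hc, -⟩ := hp
      obtain ⟨-, t', ht', hc', -⟩ := hp'
      rw [ht] at ht'
      apply hrr
      ext
      rw [← hc, ← hc', Sum.inl_injective ht'])
    (by
      intro r p hp q hq hpq hconf
      rw [Finset.mem_filter] at hp hq
      obtain ⟨-, t, ht, hc, hm⟩ := hp
      obtain ⟨-, t', ht', hc', hm'⟩ := hq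
      obtain ⟨c, hcp, hcq⟩ := hconf
      obtain ⟨j, hj⟩ := hlo.index hcp
      obtain ⟨j', hj'⟩ := hlo.index hcq
      apply hne c
      refine D_eq_rows z π (j := j) (j' := j') ?_ (hj ▸ ht) (hj' ▸ ht') (hc.trans hc'.symm)
        ⟨fun h => absurd h hm, fun h => absurd h hm'⟩
      rintro rfl
      exact hpq (hj.symm.trans hj'))
    (by
      intro r
      apply Finset.card_bij (fun p _ => π p)
      · intro p hp
        rw [Finset.mem_filter] at hp
        unfold pure
        rw [Finset.mem_filter]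
        exact ⟨Finset.mem_univ _, hp.2⟩
      · intro p _ q _ h
        exact π.injective h
      · intro p hp
        unfold pure at hp
        rw [Finset.mem_filter] at hp
        refine ⟨π.symm p, ?_, by simp⟩
        rw [Finset.mem_filter]
        simpa using hp.2)
  -- a pure position of class `i` carries a pure label of class `α.symm i`
  have hX : ∀ (r : Fin R) (p : T ⊕ Fin N), (∃ t, π p = Sum.inl t ∧ Fr.cls t = r ∧ ¬ Fr.mix t) ↔
      ∃ t, p = Sum.inl t ∧ Fr.cls t = α r ∧ ¬ Fr.mix t := by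
    intro r p
    have h1 := congrArg (fun s => p ∈ s) (hα r)
    simp only [pure, Finset.mem_filter, Finset.mem_univ, true_and, eq_iff_iff] at h1
    exact h1
  have hpos : ∀ (t : T) (i : Fin R), Fr.cls t = i → ¬ Fr.mix t →
      ∃ t', π (Sum.inl t) = Sum.inl t' ∧ Fr.cls t' = α.symm i ∧ ¬ Fr.mix t' := by
    intro t i hi hm
    exact (hX (α.symm i) (Sum.inl t)).2 ⟨t, rfl, by rw [hi, Equiv.apply_symm_apply], hm⟩
  -- the row `α ρ` of a column with pure top carries the label of class `ρ`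
  have hrow : ∀ (c : C) (i0 : ℕ) (ρ : Fin R), Fr.pureBut c i0 → (α ρ : ℕ) ≠ i0 →
      ∃ (h : (α ρ : ℕ) < Fr.len c) (t : T), π (Fr.J c (lo c) ⟨α ρ, h⟩) = Sum.inl t ∧
        Fr.cls t = ρ ∧ ¬ Fr.mix t := by
    intro c i0 ρ hp hne'
    obtain ⟨hl, hp⟩ := hp
    obtain ⟨t, ht, hc, hm⟩ := hp (α ρ) (α ρ).2 hne'
    have h1 : (α ρ : ℕ) < Fr.len c := lt_of_lt_of_le (α ρ).2 hl
    obtain ⟨t', ht', hc', hm'⟩ := hpos t (α ρ) hc hm
    refine ⟨h1, t', ?_, ?_, hm'⟩
    · rw [J_of_lt (j := ⟨(α ρ : ℕ), h1⟩) (α ρ).2]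
      simp only
      rw [ht, ht']
    · rw [hc', Equiv.symm_apply_apply]
  -- free positions carry free labels
  have hQ : ∀ q : Fin N, ∃ q', π (Sum.inr q) = Sum.inr q' := by
    intro q
    rcases hq : π (Sum.inr q) with t | q'
    · exfalso
      by_cases hm : Fr.mix t
      · have hρ1 := Fr.mix_lt t hm
        have hρ : Fr.cls t < R := Fr.cls_lt t
        obtain ⟨c, hfx, hpure, hqb⟩ := hP.full q
        obtain ⟨j0, hj0⟩ := hlo.index (c := c) (p := Sum.inr q) (Or.inr ⟨hfx, q, hqb, rfl⟩)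
        obtain ⟨hl1, t1, ht1, hc1, hm1⟩ := hrow c R ⟨Fr.cls t, hρ⟩ hpure (α _).2.ne
        obtain ⟨hl2, t2, ht2, hc2, hm2⟩ := hrow c R ⟨Fr.cls t + 1, hρ1⟩ hpure (α _).2.ne
        apply hne c
        have hneq : ∀ (i : Fin R) (hl : (i : ℕ) < Fr.len c), j0 ≠ ⟨i, hl⟩ := by
          rintro i hl rfl
          rw [J_of_lt (j := ⟨(i : ℕ), hl⟩) i.2] at hj0
          obtain ⟨t3, ht3, -⟩ := hpure.2 i i.2 i.2.ne
          simp only at hj0
          rw [ht3] at hj0
          exact absurd hj0 (by simp)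
        exact D_dep z π (hneq _ hl1) (hneq _ hl2) (hj0 ▸ hq) ht1 ht2 hm hm1 hm2 hc1 hc2
      · have h1 := (hX ⟨Fr.cls t, Fr.cls_lt t⟩ (Sum.inr q)).1 ⟨t, hq, rfl, hm⟩
        obtain ⟨t', ht', -⟩ := h1
        exact absurd ht' (by simp)
    · exact ⟨q', rfl⟩
  choose g hg using hQ
  have hginj : Function.Injective g := by
    intro q q' h
    have h3 : π (Sum.inr q) = π (Sum.inr q') := by rw [hg, hg, h]
    exact Sum.inr_injective (π.injective h3)
  have hgsurj : Function.Surjective g := Finite.surjective_of_injective hginj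
  -- top positions carry top labels, mixed ones mixed labels
  have hT : ∀ t : T, ∃ t', π (Sum.inl t) = Sum.inl t' := by
    intro t
    rcases ht : π (Sum.inl t) with t' | q
    · exact ⟨t', rfl⟩
    · exfalso
      obtain ⟨q', hq'⟩ := hgsurj q
      have h1 : π (Sum.inl t) = π (Sum.inr q') := by rw [ht, hg, hq']
      exact absurd (π.injective h1) (by simp)
  have hM : ∀ s : T, Fr.mix s → ∃ t, π (Sum.inl s) = Sum.inl t ∧ Fr.mix t := by
    intro s hs
    obtain ⟨t, ht⟩ := hT s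
    refine ⟨t, ht, ?_⟩
    by_contra hm
    obtain ⟨t', ht', -, hm'⟩ := (hX ⟨Fr.cls t, Fr.cls_lt t⟩ (Sum.inl s)).1 ⟨t, ht, rfl, hm⟩
    rw [← Sum.inl_injective ht'] at hm'
    exact hm' hs
  -- pins
  have hpin : ∀ s t : T, Fr.mix s → π (Sum.inl s) = Sum.inl t → ∀ (ht : Fr.mix t),
      ∀ c i0, i0 < R → Fr.srv c i0 = Sum.inl s → Fr.pureBut c i0 →
      (α ⟨Fr.cls t, Fr.cls_lt t⟩ : ℕ) = i0 ∨ (α ⟨Fr.cls t + 1, Fr.mix_lt t ht⟩ : ℕ) = i0 := by
    intro s t hs hst ht c i0 hi0 hsrv hpure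
    by_contra hcon
    rw [not_or] at hcon
    obtain ⟨hl1, t1, ht1, hc1, hm1⟩ := hrow c i0 _ hpure hcon.1
    obtain ⟨hl2, t2, ht2, hc2, hm2⟩ := hrow c i0 _ hpure hcon.2
    have hl0 : i0 < Fr.len c := lt_of_lt_of_le hi0 hpure.1
    apply hne c
    have h0 : π (Fr.J c (lo c) ⟨i0, hl0⟩) = Sum.inl t := by
      rw [J_of_lt (j := ⟨i0, hl0⟩) hi0]
      simp only
      rw [hsrv, hst]
    refine D_dep z π ?_ ?_ h0 ht1 ht2 ht hm1 hm2 hc1 hc2
    · intro h
      have : i0 = (α ⟨Fr.cls t, Fr.cls_lt t⟩ : ℕ) := by simpa using h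
      exact hcon.1 this.symm
    · intro h
      have : i0 = (α ⟨Fr.cls t + 1, Fr.mix_lt t ht⟩ : ℕ) := by simpa using h
      exact hcon.2 this.symm
  have hlink : ∀ s t : T, Fr.mix s → π (Sum.inl s) = Sum.inl t → ∀ (ht : Fr.mix t),
      ((α ⟨Fr.cls t, Fr.cls_lt t⟩ : ℕ) = Fr.cls s ∧
        (α ⟨Fr.cls t + 1, Fr.mix_lt t ht⟩ : ℕ) = Fr.cls s + 1) ∨
      ((α ⟨Fr.cls t, Fr.cls_lt t⟩ : ℕ) = Fr.cls s + 1 ∧
        (α ⟨Fr.cls t + 1, Fr.mix_lt t ht⟩ : ℕ) = Fr.cls s) := by
    intro s t hs hst ht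
    obtain ⟨c1, hs1, hp1⟩ := hP.own s hs
    obtain ⟨c2, hs2, hp2⟩ := hP.upp s hs
    have h1 := hpin s t hs hst ht c1 _ (Fr.cls_lt s) hs1 hp1
    have h2 := hpin s t hs hst ht c2 _ (Fr.mix_lt s hs) hs2 hp2
    omega
  -- the path
  set β : ℕ → ℕ := fun i => if h : i < R then (α.symm ⟨i, h⟩ : ℕ) else i with hβ
  have hβ1 : ∀ i : Fin R, β i = α.symm i := by
    intro i
    rw [hβ]
    simp only
    rw [dif_pos i.2]
  have hαβ : ∀ (ρ : Fin R) (i : ℕ), (α ρ : ℕ) = i → β i = ρ := by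
    intro ρ i h
    have h1 := hβ1 (α ρ)
    rw [h, Equiv.symm_apply_apply] at h1
    exact h1
  have hstep : ∀ i, i + 1 < R → β (i + 1) = β i + 1 ∨ β i = β (i + 1) + 1 := by
    intro i hi
    obtain ⟨s, hs, hsi⟩ := hP.ex i hi
    obtain ⟨t, hst, ht⟩ := hM s hs
    rcases hlink s t hs hst ht with ⟨h1, h2⟩ | ⟨h1, h2⟩
    · left
      rw [hsi] at h1 h2
      rw [hαβ _ _ h1, hαβ _ _ h2]
    · right
      rw [hsi] at h1 h2
      rw [hαβ _ _ h1, hαβ _ _ h2]
  have hβid : ∀ i < R, β i = i := by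
    rcases path_id_or_rev R β
      (fun i hi => by rw [hβ1 ⟨i, hi⟩]; exact (α.symm ⟨i, hi⟩).2)
      (fun i hi j hj h => by
        rw [hβ1 ⟨i, hi⟩, hβ1 ⟨j, hj⟩] at h
        have h1 := α.symm.injective (Fin.ext h)
        simpa using h1) hstep with h | h
    · exact h
    · exfalso
      obtain ⟨c, hc, q, hq⟩ := hP.first
      have hfx := Fr.tst_fx c hc
      have hl := Fr.fx_len c hfx
      have hR : 0 < R := by
        by_contra h0
        have h1 : R - 1 = 0 := by omega
        have h2 := hP.last c hc q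
        rw [h1] at h2
        exact h2 hq
      apply hne c
      unfold D
      apply Matrix.det_eq_zero_of_column_eq_zero ⟨R - 1, by omega⟩
      have hfree : ∀ q' : Fin N, Fr.ent z (π (Sum.inr q')) (R - 1) = 0 := by
        intro q'
        rw [hg]
        simp only [ent]
        rw [if_pos (by omega), if_neg]
        rintro ⟨-, c', hc', hs'⟩
        exact hP.last c' hc' _ hs'
      intro j
      rw [Matrix.of_apply]
      by_cases hj : (j : ℕ) < R
      · rw [J_of_lt hj]
        rcases Fr.tst_srv c hc j hj with ⟨t, ht, hct, hmt⟩ | ⟨q', hq', -⟩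
        · obtain ⟨t', ht', hct', hmt'⟩ := hpos t ⟨j, hj⟩ hct hmt
          rw [ht, ht']
          simp only [ent, vec]
          have h1 := h j hj
          rw [hβ1 ⟨j, hj⟩] at h1
          have hj0 : (j : ℕ) ≠ 0 := by
            intro h0
            rw [h0, hq] at ht
            exact absurd ht (by simp)
          rw [if_neg (by omega), if_neg (fun h2 => hmt' h2.1), add_zero, map_zero]
        · rw [hq']
          exact hfree q'
      · rw [J_of_ge (by omega)]
        exact hfree _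
  refine ⟨Equiv.ofBijective g ⟨hginj, hgsurj⟩, fun q => by rw [hg]; rfl, fun t => ?_⟩
  by_cases hm : Fr.mix t
  · obtain ⟨t', ht', hm'⟩ := hM t hm
    refine ⟨t', ht', ?_, ⟨fun _ => hm, fun _ => hm'⟩⟩
    rcases hlink t t' hm ht' hm' with ⟨h1, h2⟩ | ⟨h1, h2⟩
    · have h3 := hαβ _ _ h1
      rw [hβid _ (Fr.cls_lt t)] at h3
      exact h3.symm
    · have h3 := hαβ _ _ h1
      have h4 := hαβ _ _ h2
      rw [hβid _ (Fr.mix_lt t hm)] at h3
      rw [hβid _ (Fr.cls_lt t)] at h4
      simp only at h3 h4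
      omega
  · obtain ⟨t', ht', hc', hm'⟩ := hpos t ⟨Fr.cls t, Fr.cls_lt t⟩ rfl hm
    refine ⟨t', ht', ?_, ⟨fun h => absurd h hm', fun h => absurd h hm⟩⟩
    rw [hc', ← hβ1]
    exact hβid _ (Fr.cls_lt t)

end Frame6

end Vale.Agent.P181.T6
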