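import Vale.Agent.P181.H914.Value
import Vale.Agent.P181.H502.Surplus

set_option autoImplicit false

open MvPolynomial
open scoped Classical

namespace Vale.Agent.P181.T6

open Vale.Agent.P181.FR Vale.Agent.P181.H188W Vale.Agent.P181.T4

/-- The frame of T6/S5. Rows are numbered from `0`; `T` = letters whose vector lies in the span of
the first `R` rows (pure: `e_(cls t)`; mixed: `e_(cls t) + e_(cls t + 1)`), `Fin N` = free points,
`C` = columns. `srv c i` is the letter in row `i` of the column `c` (only `i < len c`, `i < R`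
matter). `fx c`: the column `c` is fixed, and `bot c` is the set of its letters in the rows `≥ R`.
`tst c`: the column is a (fixed) test column; its missing rows are those `i < R` which are served
by a free point (a mark). -/
structure Frame6 (m R N : ℕ) (T C : Type) [Fintype T] [Fintype C] where
  cls : T → ℕ
  mix : T → Prop
  cls_lt : ∀ t, cls t < R
  mix_lt : ∀ t, mix t → cls t + 1 < R
  len : C → ℕ
  len_le : ∀ c, len c ≤ m
  srv : C → ℕ → T ⊕ Fin N
  fx : C → Prop
  tst : C → Prop
  tst_fx : ∀ c, tst c → fx c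
  fx_len : ∀ c, fx c → R ≤ len c
  bot : C → Finset (Fin N)
  bot_card : ∀ c, fx c → (bot c).card = len c - R
  serve : ∀ c, ¬ tst c → ∀ i < len c, i < R → ∃ t, srv c i = Sum.inl t ∧
    (cls t = i ∨ (mix t ∧ cls t + 1 = i ∧
      ∃ t', srv c (i - 1) = Sum.inl t' ∧ cls t' = i - 1 ∧ ¬ mix t'))
  tst_srv : ∀ c, tst c → ∀ i < R, (∃ t, srv c i = Sum.inl t ∧ cls t = i ∧ ¬ mix t) ∨
    (∃ q, srv c i = Sum.inr q ∧ q ∉ bot c)
  tst_inj : ∀ c, tst c → ∀ i < R, ∀ i' < R, ∀ q, srv c i = Sum.inr q → srv c i' = Sum.inr q →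
    i = i'

namespace Frame6

variable {m R N : ℕ} {T C : Type} [Fintype T] [Fintype C] (Fr : Frame6 m R N T C)

/-- the position `p` is known to lie in the column `c`: in its top part, or in the lower part of
a fixed column -/
def inc (c : C) (p : T ⊕ Fin N) : Prop :=
  (∃ i < R, i < Fr.len c ∧ Fr.srv c i = p) ∨ (Fr.fx c ∧ ∃ q ∈ Fr.bot c, Sum.inr q = p)

/-- the positions `p`, `q` are known to lie in a common column -/
def conf (p q : T ⊕ Fin N) : Prop := ∃ c, Fr.inc c p ∧ Fr.inc c q

/-- the pure positions of class `r` -/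
noncomputable def pure (r : ℕ) : Finset (T ⊕ Fin N) :=
  Finset.univ.filter (fun p => ∃ t, p = Sum.inl t ∧ Fr.cls t = r ∧ ¬ Fr.mix t)

/-- **Forcing of the pure classes** (from complete guards or from superblocks via
`H502.surplus`). -/
def Forced : Prop := ∀ X : Fin R → Finset (T ⊕ Fin N),
  (∀ r r', r ≠ r' → Disjoint (X r) (X r')) →
  (∀ r, ∀ p ∈ X r, ∀ q ∈ X r, p ≠ q → ¬ Fr.conf p q) →
  (∀ r, (X r).card = (Fr.pure r).card) →
  ∃ α : Equiv.Perm (Fin R), ∀ r, X r = Fr.pure (α r)

/-- the column `c` has length at least `R` and its rows `< R` are served by pure letters except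
perhaps for the row `i0` -/
def pureBut (c : C) (i0 : ℕ) : Prop := R ≤ Fr.len c ∧
  ∀ i < R, i ≠ i0 → ∃ t, Fr.srv c i = Sum.inl t ∧ Fr.cls t = i ∧ ¬ Fr.mix t

/-- **Mixed letters** pin the renaming of the classes. -/
structure Pinned : Prop where
  /-- every free point lies in the lower part of a fixed column whose top rows are all pure -/
  full : ∀ q : Fin N, ∃ c, Fr.fx c ∧ Fr.pureBut c R ∧ q ∈ Fr.bot c
  /-- own use of every mixed letter in a column with otherwise pure top -/
  own : ∀ t, Fr.mix t → ∃ c, Fr.srv c (Fr.cls t) = Sum.inl t ∧ Fr.pureBut c (Fr.cls t)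
  /-- upper use of every mixed letter in a column with otherwise pure top -/
  upp : ∀ t, Fr.mix t → ∃ c, Fr.srv c (Fr.cls t + 1) = Sum.inl t ∧ Fr.pureBut c (Fr.cls t + 1)
  /-- all links of the chain exist -/
  ex : ∀ r, r + 1 < R → ∃ t, Fr.mix t ∧ Fr.cls t = r
  /-- the reversal of the chain is excluded: row `0` is missing in some test column and the row
  `R - 1` in none -/
  first : ∃ c, Fr.tst c ∧ ∃ q, Fr.srv c 0 = Sum.inr q
  last : ∀ c, Fr.tst c → ∀ q, Fr.srv c (R - 1) ≠ Sum.inr q

/-- row `i` is a label of the free point `q`: it serves the row `i` of some test column -/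
def label (i : ℕ) (q : Fin N) : Prop := i < R ∧ ∃ c, Fr.tst c ∧ Fr.srv c i = Sum.inr q

/-- **Tests** identify the free points. -/
structure Tested : Prop where
  /-- in a test column missing the row `i` only the mark at row `i` has the label `i` -/
  only : ∀ c, Fr.tst c → ∀ i < R, ∀ q q', Fr.srv c i = Sum.inr q → Fr.label i q' →
    Fr.inc c (Sum.inr q') → q' = q
  /-- the label set of `q` cannot be served from the position `p ≠ q` -/
  sep : ∀ q p, q ≠ p → ∃ i, Fr.label i q ∧ ∀ c, Fr.tst c → (∃ q', Fr.srv c i = Sum.inr q') →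
    ¬ Fr.inc c (Sum.inr p)

end Frame6

end Vale.Agent.P181.T6
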