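import Vale.Agent.P181.H502.Cnt

/-! P181: almost all partitions of `a b` with at most `a` parts have large gaps. -/

set_option autoImplicit false

namespace Vale.Agent.P181.H502

open Finset
open Vale.Agent.P181.H676 Vale.Agent.P181.H106

theorem exp_two_lt : 16 * Real.exp 2 ≤ 119 := by
  have h1 := Real.exp_one_lt_d9
  have h2 : Real.exp 2 = Real.exp 1 * Real.exp 1 := by rw [← Real.exp_add]; norm_num
  have h3 := Real.exp_pos 1
  rw [h2]
  nlinarith

/-- growth by at most one layer -/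
theorem grow_b {n b T : ℕ} (hb : n + 1 ≤ b) (hT : T ≤ b) :
    ((Lam (n + 1) ((n + 1) * b + T)).card : ℝ) ≤
      119 * ((Lam (n + 1) ((n + 1) * b)).card : ℝ) := by
  have h1 : (n + 1) ^ 2 ≤ (n + 1) * b + T - T := by
    rw [Nat.add_sub_cancel, pow_two]
    exact Nat.mul_le_mul_left _ hb
  have hbN : b ≤ (n + 1) * b := Nat.le_mul_of_pos_left b (by omega)
  have h2 : 2 * T ≤ (n + 1) * b + T := by omega
  have h3 := growth h1 h2
  rw [Nat.add_sub_cancel] at h3
  refine h3.trans ?_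
  have hb0 : (0 : ℝ) < b := by exact_mod_cast (by omega : 0 < b)
  have hTb : (T : ℝ) ≤ b := by exact_mod_cast hT
  have hT0 : (0 : ℝ) ≤ T := Nat.cast_nonneg T
  have hn0 : (0 : ℝ) ≤ n := Nat.cast_nonneg n
  have h4 : 2 * ((n : ℝ) + 1) * T / (((n + 1) * b + T : ℕ) : ℝ) ≤ 2 := by
    rw [div_le_iff₀ (by push_cast; positivity)]
    push_cast
    nlinarith
  have h5 : Real.exp (2 * ((n : ℝ) + 1) * T / (((n + 1) * b + T : ℕ) : ℝ)) ≤ Real.exp 2 :=
    Real.exp_le_exp.2 h4
  have h6 := exp_two_lt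
  have h7 : (0 : ℝ) ≤ ((Lam (n + 1) ((n + 1) * b)).card : ℝ) := Nat.cast_nonneg _
  refine mul_le_mul_of_nonneg_right ?_ h7
  linarith

open Classical in
/-- the gap after a row which is not the first -/
theorem gap_small {n b d Y : ℕ} (hb : n + 1 ≤ b) (hd : 1 ≤ d) (hdn : d ≤ n) :
    (((Lam (n + 1) ((n + 1) * b)).filter fun l => gap l d ≤ Y).card : ℝ) * b ≤
      119 * ((Y : ℝ) + 1) * ((d : ℝ) + 1) * ((Lam (n + 1) ((n + 1) * b)).card : ℝ) := by
  have h1 := cnt (n := n) (N := (n + 1) * b) (T := (d + 1) * (b / (d + 1))) (H := d + 1)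
    (Y := Y) (Z := b / (d + 1)) (W := {d}) (by
      intro e he
      rw [Finset.mem_singleton] at he
      omega) (le_refl _)
  simp only [Finset.sum_singleton, Finset.card_singleton, Nat.choose_one_right] at h1
  have h2 := grow_b (n := n) (T := (d + 1) * (b / (d + 1))) hb (Nat.mul_div_le _ _)
  set B := ((Lam (n + 1) ((n + 1) * b)).filter fun l => gap l d ≤ Y).card
  set L := (Lam (n + 1) ((n + 1) * b)).card
  set L' := (Lam (n + 1) ((n + 1) * b + (d + 1) * (b / (d + 1)))).card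
  have h3 : b ≤ (d + 1) * (b / (d + 1) + 1) := (Nat.lt_mul_div_succ b (by omega)).le
  have h4 : B * b ≤ (Y + 1) * (d + 1) * L' := by
    calc B * b ≤ B * ((d + 1) * (b / (d + 1) + 1)) := Nat.mul_le_mul_left _ h3
      _ = (d + 1) * (B * (b / (d + 1) + 1)) := by ring
      _ ≤ (d + 1) * ((Y + 1) * L') := Nat.mul_le_mul_left _ h1
      _ = _ := by ring
  have h5 : (B : ℝ) * b ≤ ((Y : ℝ) + 1) * ((d : ℝ) + 1) * L' := by exact_mod_cast h4
  refine h5.trans ?_
  calc ((Y : ℝ) + 1) * ((d : ℝ) + 1) * L' ≤ ((Y : ℝ) + 1) * ((d : ℝ) + 1) * (119 * L) :=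
        mul_le_mul_of_nonneg_left h2 (by positivity)
    _ = _ := by ring

open Classical in
theorem cnt0 {n N g Z : ℕ} (hn : 1 ≤ n) :
    ((Lam (n + 1) N).filter fun l => gap l 0 = g).card * (Z + 1) ≤
      (Lam (n + 1) (N + 2 * Z)).card := by
  rw [← Finset.card_range (Z + 1), ← Finset.card_product]
  let cc : ℕ → ℕ → ℕ := fun i e => if e = 0 then 2 * i else if e = 1 then Z - i else 0
  have hcc : ∀ i ∈ range (Z + 1), ∑ e ∈ range (n + 1), (e + 1) * cc i e = 2 * Z := by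
    intro i hi
    rw [Finset.mem_range] at hi
    have h1 : ∑ e ∈ range (n + 1), (e + 1) * cc i e = ∑ e ∈ range 2, (e + 1) * cc i e := by
      symm
      refine Finset.sum_subset (Finset.range_subset_range.2 (by omega)) ?_
      intro e _ he
      rw [Finset.mem_range] at he
      have h0 : e ≠ 0 := by omega
      have h1 : e ≠ 1 := by omega
      simp only [cc, if_neg h0, if_neg h1, Nat.mul_zero]
    rw [h1, Finset.sum_range_succ, Finset.sum_range_one]
    have e0 : cc i 0 = 2 * i := by simp only [cc, if_true]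
    have e1 : cc i 1 = Z - i := by
      have : (1 : ℕ) ≠ 0 := one_ne_zero
      simp only [cc, if_neg this, if_true]
    rw [e0, e1]
    omega
  refine Finset.card_le_card_of_injOn
    (fun p : (Fin (n + 1) → ℕ) × ℕ => addf (cc p.2) p.1) ?_ ?_
  · rintro ⟨l, i⟩ hp
    have hp := Finset.mem_product.1 (Finset.mem_coe.1 hp)
    have hl := Finset.mem_filter.1 hp.1
    have hl1 : Antitone l ∧ ∑ i, l i = N := mem_Lam.1 hl.1
    have hi : i ∈ range (Z + 1) := hp.2
    refine Finset.mem_coe.2 (mem_Lam.2 ⟨addf_anti _ hl1.1, ?_⟩)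
    simp only
    rw [addf_sum, hl1.2, hcc i hi]
  · rintro ⟨l, i⟩ hp ⟨l', i'⟩ hp' heq
    have hp := Finset.mem_product.1 (Finset.mem_coe.1 hp)
    have hp' := Finset.mem_product.1 (Finset.mem_coe.1 hp')
    have hl := Finset.mem_filter.1 hp.1
    have hl' := Finset.mem_filter.1 hp'.1
    have hl1 : Antitone l ∧ ∑ i, l i = N := mem_Lam.1 hl.1
    have hl1' : Antitone l' ∧ ∑ i, l' i = N := mem_Lam.1 hl'.1
    have hg : gap l 0 = g := hl.2
    have hg' : gap l' 0 = g := hl'.2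
    have e2 : addf (cc i) l = addf (cc i') l' := heq
    have h2 : gap (addf (cc i) l) 0 = gap (addf (cc i') l') 0 := by rw [e2]
    rw [gap_addf _ hl1.1 (Nat.zero_le _), gap_addf _ hl1'.1 (Nat.zero_le _)] at h2
    simp only [cc, if_true] at h2
    have hii : i = i' := by omega
    subst hii
    have := addf_inj _ e2
    rw [this]

open Classical in
/-- the gap after the first row -/
theorem gap_small0 {n b Y : ℕ} (hn : 1 ≤ n) (hb : n + 1 ≤ b) :
    (((Lam (n + 1) ((n + 1) * b)).filter fun l => gap l 0 ≤ Y).card : ℝ) * b ≤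
      238 * ((Y : ℝ) + 1) * ((Lam (n + 1) ((n + 1) * b)).card : ℝ) := by
  have h1 : ((Lam (n + 1) ((n + 1) * b)).filter fun l => gap l 0 ≤ Y).card * (b / 2 + 1) ≤
      (Y + 1) * (Lam (n + 1) ((n + 1) * b + 2 * (b / 2))).card := by
    have h2 : ((Lam (n + 1) ((n + 1) * b)).filter fun l => gap l 0 ≤ Y).card ≤
        ∑ g ∈ range (Y + 1), ((Lam (n + 1) ((n + 1) * b)).filter fun l => gap l 0 = g).card := by
      refine le_trans (Finset.card_le_card ?_) Finset.card_biUnion_le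
      intro l hl
      rw [Finset.mem_filter] at hl
      rw [Finset.mem_biUnion]
      exact ⟨gap l 0, Finset.mem_range.2 (by omega), Finset.mem_filter.2 ⟨hl.1, rfl⟩⟩
    calc ((Lam (n + 1) ((n + 1) * b)).filter fun l => gap l 0 ≤ Y).card * (b / 2 + 1)
        ≤ (∑ g ∈ range (Y + 1),
          ((Lam (n + 1) ((n + 1) * b)).filter fun l => gap l 0 = g).card) * (b / 2 + 1) :=
          Nat.mul_le_mul_right _ h2
      _ = ∑ g ∈ range (Y + 1),
          ((Lam (n + 1) ((n + 1) * b)).filter fun l => gap l 0 = g).card * (b / 2 + 1) :=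
          Finset.sum_mul _ _ _
      _ ≤ ∑ g ∈ range (Y + 1), (Lam (n + 1) ((n + 1) * b + 2 * (b / 2))).card :=
          Finset.sum_le_sum fun g _ => cnt0 hn
      _ = _ := by rw [Finset.sum_const, Finset.card_range, smul_eq_mul]
  have h2 := grow_b (n := n) (T := 2 * (b / 2)) hb (Nat.mul_div_le _ _)
  set B := ((Lam (n + 1) ((n + 1) * b)).filter fun l => gap l 0 ≤ Y).card
  set L := (Lam (n + 1) ((n + 1) * b)).card
  set L' := (Lam (n + 1) ((n + 1) * b + 2 * (b / 2))).card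
  have h3 : b ≤ 2 * (b / 2 + 1) := by omega
  have h4 : B * b ≤ 2 * (Y + 1) * L' := by
    calc B * b ≤ B * (2 * (b / 2 + 1)) := Nat.mul_le_mul_left _ h3
      _ = 2 * (B * (b / 2 + 1)) := by ring
      _ ≤ 2 * ((Y + 1) * L') := Nat.mul_le_mul_left _ h1
      _ = _ := by ring
  have h5 : (B : ℝ) * b ≤ 2 * ((Y : ℝ) + 1) * L' := by exact_mod_cast h4
  refine h5.trans ?_
  calc 2 * ((Y : ℝ) + 1) * L' ≤ 2 * ((Y : ℝ) + 1) * (119 * L) :=
        mul_le_mul_of_nonneg_left h2 (by positivity)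
    _ = _ := by ring

open Classical in
/-- **All the first `D` gaps are large.** -/
theorem gaps_small {n b D Y : ℕ} (hn : 1 ≤ n) (hb : n + 1 ≤ b) (hD : D ≤ n + 1) :
    (((Lam (n + 1) ((n + 1) * b)).filter fun l => ∃ d < D, gap l d ≤ Y).card : ℝ) * b ≤
      119 * ((Y : ℝ) + 1) * ((D : ℝ) + 1) ^ 2 * ((Lam (n + 1) ((n + 1) * b)).card : ℝ) := by
  have hL : (0 : ℝ) ≤ ((Lam (n + 1) ((n + 1) * b)).card : ℝ) := Nat.cast_nonneg _
  have hb0 : (0 : ℝ) ≤ b := Nat.cast_nonneg _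
  have h1 : ((Lam (n + 1) ((n + 1) * b)).filter fun l => ∃ d < D, gap l d ≤ Y).card ≤
      ∑ d ∈ range D, ((Lam (n + 1) ((n + 1) * b)).filter fun l => gap l d ≤ Y).card := by
    refine le_trans (Finset.card_le_card ?_) Finset.card_biUnion_le
    intro l hl
    rw [Finset.mem_filter] at hl
    obtain ⟨hl, d, hd, hg⟩ := hl
    rw [Finset.mem_biUnion]
    exact ⟨d, Finset.mem_range.2 hd, Finset.mem_filter.2 ⟨hl, hg⟩⟩
  have h2 : (((Lam (n + 1) ((n + 1) * b)).filter fun l => ∃ d < D, gap l d ≤ Y).card : ℝ) ≤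
      ∑ d ∈ range D, (((Lam (n + 1) ((n + 1) * b)).filter fun l => gap l d ≤ Y).card : ℝ) := by
    exact_mod_cast h1
  have h3 : ∀ d ∈ range D, (((Lam (n + 1) ((n + 1) * b)).filter fun l => gap l d ≤ Y).card : ℝ) *
      b ≤ 119 * ((Y : ℝ) + 1) * ((Lam (n + 1) ((n + 1) * b)).card : ℝ) * ((d : ℝ) + 2) := by
    intro d hd
    rw [Finset.mem_range] at hd
    have hc : 0 ≤ 119 * ((Y : ℝ) + 1) * ((Lam (n + 1) ((n + 1) * b)).card : ℝ) := by positivity
    rcases Nat.eq_zero_or_pos d with h0 | h0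
    · subst h0
      refine (gap_small0 hn hb).trans ?_
      push_cast
      linarith
    · refine (gap_small hb h0 (by omega)).trans ?_
      have : 119 * ((Y : ℝ) + 1) * ((d : ℝ) + 1) * ((Lam (n + 1) ((n + 1) * b)).card : ℝ) =
        119 * ((Y : ℝ) + 1) * ((Lam (n + 1) ((n + 1) * b)).card : ℝ) * ((d : ℝ) + 1) := by ring
      rw [this]
      exact mul_le_mul_of_nonneg_left (by linarith) hc
  have h4 : ∑ d ∈ range D, ((d : ℝ) + 2) ≤ ((D : ℝ) + 1) ^ 2 := by
    clear hD h1 h2 h3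
    induction D with
    | zero => simp
    | succ D ih =>
      rw [Finset.sum_range_succ]
      push_cast
      have : (0 : ℝ) ≤ D := Nat.cast_nonneg _
      nlinarith
  calc (((Lam (n + 1) ((n + 1) * b)).filter fun l => ∃ d < D, gap l d ≤ Y).card : ℝ) * b
      ≤ (∑ d ∈ range D,
        (((Lam (n + 1) ((n + 1) * b)).filter fun l => gap l d ≤ Y).card : ℝ)) * b :=
        mul_le_mul_of_nonneg_right h2 hb0
    _ = ∑ d ∈ range D,
        (((Lam (n + 1) ((n + 1) * b)).filter fun l => gap l d ≤ Y).card : ℝ) * b :=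
        Finset.sum_mul _ _ _
    _ ≤ ∑ d ∈ range D, 119 * ((Y : ℝ) + 1) * ((Lam (n + 1) ((n + 1) * b)).card : ℝ) *
          ((d : ℝ) + 2) := Finset.sum_le_sum h3
    _ = 119 * ((Y : ℝ) + 1) * ((Lam (n + 1) ((n + 1) * b)).card : ℝ) *
          ∑ d ∈ range D, ((d : ℝ) + 2) := by rw [Finset.mul_sum]
    _ ≤ 119 * ((Y : ℝ) + 1) * ((Lam (n + 1) ((n + 1) * b)).card : ℝ) * ((D : ℝ) + 1) ^ 2 :=
        mul_le_mul_of_nonneg_left h4 (by positivity)
    _ = _ := by ring

end Vale.Agent.P181.H502
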