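import Vale.Agent.P181.H411.Seam3
import Vale.Agent.P181.H498.Mem
import Vale.Agent.P181.R2.H959.FMul
import Vale.Agent.P181.R2.H959.WDefs
import Vale.Agent.P181.R2.H182.PtMul
import Mathlib.LinearAlgebra.Vandermonde

/-!
P181, T7 (helper502): semigroup reduction. Positive elements made of columns of one length.
-/

set_option autoImplicit false

open scoped Classical

namespace Vale.Agent.P181.H502

open Vale.Agent.P181 Vale.Agent.P181.H280 Vale.Agent.P181.FR Vale.Agent.P181.H188W
open Vale.Agent.P181.H498 Vale.Agent.P181.T4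

/-- A filling whose symmetrised product of minors does not vanish. -/
theorem pos_of_fill {b k m : ℕ} {lam : Fin m → ℕ} {C : Type} [Fintype C] (len : C → ℕ)
    (hlen : ∀ c, len c ≤ m) (J : (c : C) → Fin (len c) → Fin b)
    (hrows : ∀ i : Fin m, (Finset.univ.filter fun c => (i : ℕ) < len c).card = lam i)
    (hdeg : ∀ j : Fin b, ∑ c, (Finset.univ.filter fun i => J c i = j).card = k)
    (p : Fin b → Fin m → ℂ)
    (hne : ∑ s : Equiv.Perm (Fin b), (∏ c, dt (hlen c) (J c)) (fun j => p (s j)) ≠ 0) :
    Pos b k m lam := by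
  have h1 : Fintype.card Unit ≤ plethMult b k m lam := by
    apply plethMult_ge (fun _ : Unit => ∏ c, dt (hlen c) (J c))
      (fun _ => prod_dt_MP len hlen J hdeg) (fun _ => prod_dt_HWF len hlen J lam hrows)
    rw [linearIndependent_unique_iff]
    intro h
    apply hne
    exact congrFun h p
  rw [Fintype.card_unit] at h1
  by_contra hcon
  have h2 : hwSpace lam (plethAct b k m) = ⊥ := by
    rw [Submodule.eq_bot_iff]
    intro x hx
    by_contra hx0
    exact hcon ⟨x, hx, hx0⟩
  have h3 : plethMult b k m lam = 0 := by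
    unfold plethMult
    rw [h2, finrank_bot]
  omega

lemma filter_const {C : Type} [Fintype C] {j m X : ℕ} (hC : Fintype.card C = X) (i : Fin m) :
    (Finset.univ.filter fun _c : C => (i : ℕ) < j).card = (X • om m j) i := by
  rw [Pi.smul_apply, smul_eq_mul, om]
  by_cases h : (i : ℕ) < j
  · rw [if_pos h, mul_one, Finset.filter_true_of_mem (fun _ _ => h), Finset.card_univ, hC]
  · rw [if_neg h, mul_zero, Finset.filter_false_of_mem (fun _ _ => h), Finset.card_empty]

/-! ### Squares: `(Q)` -/

/-- `t` squares of the minors on all cyclic blocks of length `i`. -/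
theorem pos_Q {m N i : ℕ} (t : ℕ) (him : i ≤ m) (hiN : i ≤ N) (hi : 1 ≤ i) :
    Pos N (2 * i * t) m ((2 * N * t) • om m i) := by
  have hN : 0 < N := by omega
  let J : (Fin N × Fin t × Bool) → Fin i → Fin N :=
    fun c r => ⟨((c.1 : ℕ) + r) % N, Nat.mod_lt _ hN⟩
  refine pos_of_fill (C := Fin N × Fin t × Bool) (fun _ => i) (fun _ => him) J ?_ ?_
    (fun q k => (((q : ℕ) : ℝ) ^ (k : ℕ) : ℝ)) ?_
  · intro r
    apply filter_const
    rw [Fintype.card_prod, Fintype.card_prod, Fintype.card_fin, Fintype.card_fin,
      Fintype.card_bool]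
    ring
  · intro q
    have h1 : ∀ r : Fin i, (Finset.univ.filter fun c : Fin N =>
        (⟨((c : ℕ) + r) % N, Nat.mod_lt _ hN⟩ : Fin N) = q).card = 1 := by
      intro r
      rw [Finset.card_eq_one]
      refine ⟨⟨((q : ℕ) + (N - r)) % N, Nat.mod_lt _ hN⟩, ?_⟩
      ext c
      rw [Finset.mem_filter, Finset.mem_singleton, Fin.ext_iff, Fin.ext_iff]
      simp only [Finset.mem_univ, true_and]
      have hr := r.2
      have hc := c.2
      have hq := q.2
      constructor
      · intro h
        rcases lt_or_ge ((c : ℕ) + r) N with h2 | h2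
        · rw [Nat.mod_eq_of_lt h2] at h
          rw [← h, show (c : ℕ) + r + (N - r) = c + N by omega, Nat.add_mod_right,
            Nat.mod_eq_of_lt hc]
        · rw [Nat.mod_eq_sub_mod h2, Nat.mod_eq_of_lt (by omega)] at h
          rw [← h, show (c : ℕ) + r - N + (N - r) = c by omega, Nat.mod_eq_of_lt hc]
      · intro h
        rcases lt_or_ge ((q : ℕ) + (N - r)) N with h2 | h2
        · rw [Nat.mod_eq_of_lt h2] at h
          rw [h, show (q : ℕ) + (N - r) + r = q + N by omega, Nat.add_mod_right,
            Nat.mod_eq_of_lt hq]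
        · rw [Nat.mod_eq_sub_mod h2, Nat.mod_eq_of_lt (by omega)] at h
          rw [h, show (q : ℕ) + (N - r) - N + r = q by omega, Nat.mod_eq_of_lt hq]
    have h2 : ∀ c : Fin N × Fin t × Bool, (Finset.univ.filter fun r => J c r = q).card =
        ∑ r : Fin i, if (⟨((c.1 : ℕ) + r) % N, Nat.mod_lt _ hN⟩ : Fin N) = q then 1 else 0 := by
      intro c
      rw [Finset.card_filter]
    rw [Finset.sum_congr rfl (fun c _ => h2 c), Finset.sum_comm]
    have h3 : ∀ r : Fin i, ∑ c : Fin N × Fin t × Bool,
        (if (⟨((c.1 : ℕ) + r) % N, Nat.mod_lt _ hN⟩ : Fin N) = q then 1 else 0) = 2 * t := by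
      intro r
      rw [Fintype.sum_prod_type]
      have h4 : ∀ c : Fin N, ∑ _y : Fin t × Bool,
          (if (⟨((c : ℕ) + r) % N, Nat.mod_lt _ hN⟩ : Fin N) = q then 1 else 0) =
          (2 * t) * (if (⟨((c : ℕ) + r) % N, Nat.mod_lt _ hN⟩ : Fin N) = q then 1 else 0) := by
        intro c
        rw [Finset.sum_const, Finset.card_univ, Fintype.card_prod, Fintype.card_fin,
          Fintype.card_bool, smul_eq_mul, mul_comm t 2]
      rw [Finset.sum_congr rfl (fun c _ => h4 c), ← Finset.mul_sum, ← Finset.card_filter, h1 r,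
        mul_one]
    rw [Finset.sum_congr rfl (fun r _ => h3 r), Finset.sum_const, Finset.card_univ,
      Fintype.card_fin, smul_eq_mul]
    ring
  · -- positivity
    set V : Equiv.Perm (Fin N) → (Fin N) → ℝ := fun σ c =>
      Matrix.det (Matrix.of fun r k : Fin i =>
        (((σ ⟨((c : ℕ) + r) % N, Nat.mod_lt _ hN⟩ : Fin N) : ℕ) : ℝ) ^ (k : ℕ)) with hV
    have hVne : ∀ σ c, V σ c ≠ 0 := by
      intro σ c
      rw [hV]
      have h1 : (Matrix.of fun r k : Fin i =>
        (((σ ⟨((c : ℕ) + r) % N, Nat.mod_lt _ hN⟩ : Fin N) : ℕ) : ℝ) ^ (k : ℕ)) =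
        Matrix.vandermonde (fun r : Fin i =>
          (((σ ⟨((c : ℕ) + r) % N, Nat.mod_lt _ hN⟩ : Fin N) : ℕ) : ℝ)) := rfl
      simp only
      rw [h1, Matrix.det_vandermonde_ne_zero_iff]
      intro r r' h
      have h2 := Nat.cast_injective (R := ℝ) h
      have h3 := σ.injective (Fin.ext h2)
      rw [Fin.ext_iff] at h3
      simp only at h3
      have hr := r.2
      have hr' := r'.2
      have hc := c.2
      have h4 : ((c : ℕ) + r) ≡ ((c : ℕ) + r') [MOD N] := h3
      have h5 := Nat.ModEq.add_left_cancel' _ h4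
      exact Fin.ext (Nat.ModEq.eq_of_lt_of_lt h5 (by omega) (by omega))
    have hterm : ∀ σ : Equiv.Perm (Fin N), (∏ c, dt him (J c))
        (fun j => (fun (q : Fin N) (k : Fin m) => ((((q : ℕ) : ℝ) ^ (k : ℕ) : ℝ) : ℂ)) (σ j)) =
        ((∏ c : Fin N, ((V σ c) ^ 2) ^ t : ℝ) : ℂ) := by
      intro σ
      rw [Finset.prod_apply]
      have h1 : ∀ c : Fin N × Fin t × Bool, dt him (J c)
          (fun j => (fun (q : Fin N) (k : Fin m) => ((((q : ℕ) : ℝ) ^ (k : ℕ) : ℝ) : ℂ)) (σ j)) =
          ((V σ c.1 : ℝ) : ℂ) := by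
        intro c
        rw [hV]
        unfold dt
        rw [← Complex.ofRealHom_eq_coe, RingHom.map_det]
        congr 1
      rw [Finset.prod_congr rfl (fun c _ => h1 c), Fintype.prod_prod_type, Complex.ofReal_prod]
      apply Finset.prod_congr rfl
      intro c _
      simp only
      rw [Finset.prod_const, Finset.card_univ, Fintype.card_prod, Fintype.card_fin,
        Fintype.card_bool, ← Complex.ofReal_pow, ← pow_mul, mul_comm t 2]
    rw [Finset.sum_congr rfl (fun σ _ => hterm σ), ← Complex.ofReal_sum]
    intro h0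
    have h1 : (∑ σ : Equiv.Perm (Fin N), ∏ c : Fin N, ((V σ c) ^ 2) ^ t) = 0 :=
      Complex.ofReal_eq_zero.1 h0
    have h2 : 0 < ∑ σ : Equiv.Perm (Fin N), ∏ c : Fin N, ((V σ c) ^ 2) ^ t := by
      apply Finset.sum_pos
      · intro σ _
        apply Finset.prod_pos
        intro c _
        have := hVne σ c
        positivity
      · exact ⟨1, Finset.mem_univ _⟩
    exact h2.ne' h1

/-! ### Two letters per row: `(E)` -/

/-- the letter of the row `r` with copy `g` -/
def ltr {j : ℕ} (r : Fin j) (g : Bool) : Fin (2 * j) := ⟨2 * r + g.toNat, by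
  have := r.2
  have := Bool.toNat_lt g
  omega⟩

lemma ltr_inj {j : ℕ} {r r' : Fin j} {g g' : Bool} (h : ltr r g = ltr r' g') :
    r = r' ∧ g = g' := by
  unfold ltr at h
  rw [Fin.ext_iff] at h
  simp only at h
  have h1 := Bool.toNat_lt g
  have h2 := Bool.toNat_lt g'
  have h3 : (r : ℕ) = r' := by omega
  have h4 : g.toNat = g'.toNat := by omega
  refine ⟨Fin.ext h3, ?_⟩
  cases g <;> cases g' <;> simp_all

/-- the columns of `(E)` -/
def gc {j a : ℕ} : ((Fin j × Bool) ⊕ (Fin (a - j) × Bool)) → Fin j → Bool
  | Sum.inl (i, β), r => if r = i then !β else β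
  | Sum.inr (_, β), _ => β

/-- the class of a letter -/
def lcl {j : ℕ} (l : Fin (2 * j)) : Fin j := ⟨(l : ℕ) / 2, by
  have := l.2
  omega⟩

lemma lcl_ltr {j : ℕ} (r : Fin j) (g : Bool) : lcl (ltr r g) = r := by
  unfold lcl ltr
  ext
  simp only
  have := Bool.toNat_lt g
  omega

lemma det_sel_zero {j : ℕ} (f : Fin j → Fin j) (hf : ¬ Function.Injective f) :
    Matrix.det (Matrix.of fun r k : Fin j => if k = f r then (1 : ℂ) else 0) = 0 := by
  unfold Function.Injective at hf
  push Not at hf
  obtain ⟨r, r', h, hne⟩ := hf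
  apply Matrix.det_zero_of_row_eq hne
  funext k
  rw [Matrix.of_apply, Matrix.of_apply, h]

lemma det_sel_sq {j : ℕ} (f : Fin j → Fin j) (hf : Function.Injective f) :
    Matrix.det (Matrix.of fun r k : Fin j => if k = f r then (1 : ℂ) else 0) ^ 2 = 1 := by
  have hb : Function.Bijective f := Finite.injective_iff_bijective.1 hf
  have h1 : (Matrix.of fun r k : Fin j => if k = f r then (1 : ℂ) else 0) =
      (1 : Matrix (Fin j) (Fin j) ℂ).submatrix (Equiv.ofBijective f hb) id := by
    ext r k
    rw [Matrix.of_apply, Matrix.submatrix_apply, Matrix.one_apply]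
    simp only [Equiv.ofBijective_apply, id_eq]
    by_cases h : k = f r
    · rw [if_pos h, if_pos h.symm]
    · rw [if_neg h, if_neg (fun h2 => h h2.symm)]
  rw [h1, Matrix.det_permute, Matrix.det_one, mul_one]
  rcases Int.units_eq_one_or (Equiv.Perm.sign (Equiv.ofBijective f hb)) with h | h
  · rw [h]; simp
  · rw [h]; simp

theorem pos_E {m j a : ℕ} (hjm : j ≤ m) (hja : j < a) :
    Pos (2 * j) a m ((2 * a) • om m j) := by
  let J : ((Fin j × Bool) ⊕ (Fin (a - j) × Bool)) → Fin j → Fin (2 * j) :=
    fun c r => ltr r (gc c r)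
  refine pos_of_fill (C := (Fin j × Bool) ⊕ (Fin (a - j) × Bool)) (fun _ => j) (fun _ => hjm) J
    ?_ ?_ (fun l k => if (k : ℕ) = (lcl l : ℕ) then 1 else 0) ?_
  · intro r
    apply filter_const
    rw [Fintype.card_sum, Fintype.card_prod, Fintype.card_prod, Fintype.card_fin,
      Fintype.card_fin, Fintype.card_bool]
    omega
  · intro l
    obtain ⟨r, g, hl⟩ : ∃ (r : Fin j) (g : Bool), ltr r g = l := by
      refine ⟨lcl l, decide ((l : ℕ) % 2 = 1), ?_⟩
      unfold ltr lcl
      ext
      simp only
      rcases Nat.mod_two_eq_zero_or_one (l : ℕ) with h | h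
      · rw [h]
        simp
        omega
      · rw [h]
        simp
        omega
    have h1 : ∀ c, (Finset.univ.filter fun s => J c s = l).card = if gc c r = g then 1 else 0 := by
      intro c
      by_cases h : gc c r = g
      · rw [if_pos h, Finset.card_eq_one]
        refine ⟨r, ?_⟩
        ext s
        rw [Finset.mem_filter, Finset.mem_singleton]
        constructor
        · rintro ⟨-, h2⟩
          rw [← hl] at h2
          exact (ltr_inj h2).1
        · rintro rfl
          refine ⟨Finset.mem_univ _, ?_⟩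
          rw [← hl, ← h]
      · rw [if_neg h, Finset.card_eq_zero, Finset.filter_eq_empty_iff]
        intro s _ h2
        rw [← hl] at h2
        obtain ⟨h3, h4⟩ := ltr_inj h2
        rw [h3] at h4
        exact h h4
    rw [Finset.sum_congr rfl (fun c _ => h1 c), Fintype.sum_sum_type, Fintype.sum_prod_type,
      Fintype.sum_prod_type]
    have h2 : ∀ x : Fin j, ∑ y : Bool, (if gc (a := a) (Sum.inl (x, y)) r = g then 1 else 0) = 1 := by
      intro x
      rw [Fintype.sum_bool]
      simp only [gc]
      by_cases hx : r = x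
      · simp only [hx, if_true]
        cases g <;> simp
      · simp only [hx, if_false]
        cases g <;> simp
    have h3 : ∀ x : Fin (a - j), ∑ y : Bool, (if gc (j := j) (Sum.inr (x, y)) r = g then 1 else 0) =
        1 := by
      intro x
      rw [Fintype.sum_bool]
      simp only [gc]
      cases g <;> simp
    rw [Finset.sum_congr rfl (fun x _ => h2 x), Finset.sum_congr rfl (fun x _ => h3 x)]
    simp only [Finset.sum_const, Finset.card_univ, Fintype.card_fin, smul_eq_mul, mul_one]
    omega
  · -- the value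
    set d : (Fin j → Fin j) → ℂ := fun f =>
      Matrix.det (Matrix.of fun r k : Fin j => if k = f r then (1 : ℂ) else 0) with hd
    have hterm : ∀ σ : Equiv.Perm (Fin (2 * j)), (∏ c, dt hjm (J c))
        (fun l => (fun (l : Fin (2 * j)) (k : Fin m) => if (k : ℕ) = (lcl l : ℕ) then (1 : ℂ) else 0)
          (σ l)) = ∏ c, d (fun r => lcl (σ (J c r))) := by
      intro σ
      rw [Finset.prod_apply]
      apply Finset.prod_congr rfl
      intro c _
      rw [hd]
      unfold dt
      simp only
      congr 1
      ext r k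
      rw [Matrix.of_apply, Matrix.of_apply]
      by_cases h : k = lcl (σ (J c r))
      · rw [if_pos h, if_pos]
        rw [h]
        rfl
      · rw [if_neg h, if_neg]
        intro h2
        apply h
        exact Fin.ext h2
    have hval : ∀ σ : Equiv.Perm (Fin (2 * j)), ∏ c, d (fun r => lcl (σ (J c r))) =
        if ∀ c, Function.Injective (fun r => lcl (σ (J c r))) then 1 else 0 := by
      intro σ
      split_ifs with h
      · -- all columns have the same value
        have hsame : ∀ r, lcl (σ (ltr r true)) = lcl (σ (ltr r false)) := by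
          intro r
          have hinj := h (Sum.inl (r, false))
          have hinj0 := h (Sum.inr (⟨0, by omega⟩, false))
          have hsurj := Finite.surjective_of_injective hinj0
          obtain ⟨s, hs⟩ := hsurj (lcl (σ (ltr r true)))
          simp only [J, gc] at hs
          by_cases hsr : s = r
          · rw [← hs, hsr]
          · exfalso
            apply hsr
            apply hinj
            simp only [J, gc, hsr, if_false, if_true, Bool.not_false]
            exact hs
        have h1 : ∀ c, (fun r => lcl (σ (J c r))) = fun r => lcl (σ (ltr r false)) := by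
          intro c
          funext r
          simp only [J]
          cases hg : gc c r
          · rfl
          · exact hsame r
        rw [Finset.prod_congr rfl (fun c _ => by rw [h1 c]), Finset.prod_const, Finset.card_univ,
          Fintype.card_sum, Fintype.card_prod, Fintype.card_prod, Fintype.card_fin,
          Fintype.card_fin, Fintype.card_bool,
          show j * 2 + (a - j) * 2 = 2 * a by omega, pow_mul, hd]
        simp only
        rw [det_sel_sq _ (by rw [← h1 (Sum.inr (⟨0, by omega⟩, false))]; exact h _), one_pow]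
      · push Not at h
        obtain ⟨c, hc⟩ := h
        exact Finset.prod_eq_zero (Finset.mem_univ c) (det_sel_zero _ hc)
    rw [Finset.sum_congr rfl (fun σ _ => (hterm σ).trans (hval σ)), ← Finset.sum_filter,
      Finset.sum_const, nsmul_eq_mul, mul_one, Nat.cast_ne_zero]
    rw [← Nat.pos_iff_ne_zero, Finset.card_pos]
    refine ⟨1, Finset.mem_filter.2 ⟨Finset.mem_univ _, fun c r r' h => ?_⟩⟩
    simpa only [J, Equiv.Perm.one_apply, lcl_ltr] using h

end Vale.Agent.P181.H502
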